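import Crest.Agent.N334.AC.I.Est

/-!
# Row 334, S0520, part I (helper24): the Green matrix of the uniform absorber is `G0`
-/

set_option autoImplicit false
set_option linter.unusedSectionVars false

open Finset Complex
open scoped ComplexConjugate

namespace Crest.Agent.N334.AC.I

variable {d M : ℕ} [NeZero M]

lemma hop_symm (x y : Tor d M) : hop d M x y = hop d M y x := by
  unfold hop
  congr 1
  refine sum_congr rfl fun j _ => ?_
  rw [add_comm]
  congr 1
  · exact if_congr (by rw [eq_sub_iff_add_eq, eq_comm]) rfl rfl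
  · exact if_congr (by rw [eq_sub_iff_add_eq, eq_comm]) rfl rfl

lemma conj_hop (x y : Tor d M) : conj (hop d M x y) = hop d M x y := by
  unfold hop
  rw [map_neg, map_sum]
  congr 1
  refine sum_congr rfl fun j _ => ?_
  rw [map_add]
  congr 1 <;> split_ifs <;> simp

lemma Hm_mul (E : ℝ) {w0 : ℂ} (hw : 0 < -w0.im) :
    Hm (Aop d M E) (fun _ => w0) * (Matrix.of fun x y : Tor d M => G0 (E - w0) (x - y)) = 1 := by
  have hz : 0 < ((E : ℂ) - w0).im := by simpa using hw
  ext x y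
  have e := G0_eq (d := d) (M := M) hz (x - y)
  have h1 : ∑ u, hop d M x u * G0 (E - w0) (u - y) =
      -∑ j, (G0 (E - w0) (x - y + Pi.single j 1) + G0 (E - w0) (x - y - Pi.single j 1)) := by
    simp only [hop, neg_mul, sum_neg_distrib, sum_mul, add_mul, ite_mul, one_mul, zero_mul]
    rw [sum_comm]
    simp only [sum_add_distrib, sum_ite_eq', mem_univ, if_true]
    congr 2 <;> refine sum_congr rfl fun j _ => ?_ <;> congr 1 <;> abel
  rw [Hm, Aop, Matrix.add_mul, Matrix.sub_mul, Matrix.smul_mul, Matrix.one_mul, Matrix.add_apply,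
    Matrix.sub_apply, Matrix.diagonal_mul, Matrix.mul_apply, Matrix.one_apply]
  simp only [Matrix.of_apply, Matrix.smul_apply, smul_eq_mul, h1, sub_eq_zero] at e ⊢
  rw [← e]; ring

lemma Gm_eq (E : ℝ) {w0 : ℂ} (hw : 0 < -w0.im) :
    Gm (Aop d M E) (fun _ => w0) = Matrix.of fun x y : Tor d M => G0 (E - w0) (x - y) :=
  Matrix.inv_eq_right_inv (Hm_mul E hw)

lemma adm_const (E : ℝ) {w0 : ℂ} (hw : 0 < -w0.im) : Adm (Aop d M E) fun _ => w0 := by
  refine ⟨?_, ?_, fun _ => hw.le, Matrix.isUnit_det_of_right_inverse (Hm_mul E hw)⟩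
  · ext x y
    simp only [Aop, Matrix.transpose_apply, Matrix.sub_apply, Matrix.smul_apply, Matrix.one_apply,
      hop_symm y x, eq_comm (a := y)]
  · ext x y
    simp only [Aop, Matrix.conjTranspose_apply, Matrix.sub_apply, Matrix.smul_apply,
      Matrix.one_apply, hop_symm y x, eq_comm (a := y), star_sub, RCLike.star_def, conj_hop]
    split_ifs <;> simp

lemma En_Km (E : ℝ) {w0 : ℂ} (hw : 0 < -w0.im) (hg : 0 < (G0 (E - w0) (0 : Tor d M)).im) :
    En (Km (Aop d M E) fun _ => w0) =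
      fun ψ => (-w0.im * (G0 (E - w0) (0 : Tor d M)).im) * Dir (stp (E - w0)) ψ := by
  funext ψ
  unfold En Dir Km
  rw [Gm_eq E hw, mul_left_comm]
  congr 1
  rw [mul_sum]
  refine sum_congr rfl fun a _ => ?_
  rw [mul_sum]
  refine sum_congr rfl fun b _ => ?_
  simp only [Matrix.of_apply, gam, norm_mul, Complex.norm_real, Real.norm_eq_abs, mul_pow, sq_abs,
    Real.sq_sqrt hw.le, stp, sub_im, ofReal_im, zero_sub]
  field_simp

lemma Cut.mono {E0 : (Tor d M → ℝ) → ℝ} (h0 : ∀ ψ, 0 ≤ E0 ψ) {σ C C' : ℝ} (hC : 0 ≤ C)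
    (hC' : C ≤ C') {L : ℕ} {χ : Tor d M → Tor d M → ℝ} {cp : Tor d M → (Tor d M → ℝ) →ₗ[ℝ] ℝ}
    (h : Cut E0 σ C L χ cp) : Cut E0 σ C' L χ cp := by
  have hv : 0 ≤ AC.vol d M L := Nat.cast_nonneg _
  refine ⟨h.nonneg, h.le_one, h.one, h.zero, h.van, fun ψ => (h.ims ψ).trans ?_,
    fun θ h1 h2 ψ => (h.err θ h1 h2 ψ).trans ?_⟩
  · have := h0 ψ; gcongr
  · have := h0 ψ; gcongr

end Crest.Agent.N334.AC.I
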