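import Crest.Agent.N334.AC.I.Four

/-!
# Row 334, S0520, part I (helper24): sup norm on the torus and Combes–Thomas for the free resolvent
-/

set_option autoImplicit false
set_option linter.unusedSectionVars false

open Finset Complex
open scoped ComplexConjugate

namespace Crest.Agent.N334.AC.I

variable {d M : ℕ} [NeZero M]

/-- sup norm on the torus -/
def nrm (x : Tor d M) : ℕ := univ.sup fun j => (x j).valMinAbs.natAbs

lemma le_nrm (x : Tor d M) (j : Fin d) : (x j).valMinAbs.natAbs ≤ nrm x :=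
  le_sup (f := fun j => (x j).valMinAbs.natAbs) (mem_univ j)

lemma nrm_le {x : Tor d M} {n : ℕ} : nrm x ≤ n ↔ ∀ j, (x j).valMinAbs.natAbs ≤ n := by
  simp [nrm]

@[simp] lemma nrm_zero : nrm (0 : Tor d M) = 0 := by
  apply Nat.eq_zero_of_le_zero; rw [nrm_le]; simp

lemma nrm_eq_zero {x : Tor d M} : nrm x = 0 ↔ x = 0 := by
  refine ⟨fun h => ?_, fun h => h ▸ nrm_zero⟩
  funext j
  have := le_nrm x j
  rw [h] at this
  simpa using this

@[simp] lemma nrm_neg (x : Tor d M) : nrm (-x) = nrm x := by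
  simp only [nrm, Pi.neg_apply, ZMod.natAbs_valMinAbs_neg]

lemma nrm_add_le (x y : Tor d M) : nrm (x + y) ≤ nrm x + nrm y := by
  rw [nrm_le]
  intro j
  refine (ZMod.natAbs_valMinAbs_add_le _ _).trans ((Int.natAbs_add_le _ _).trans ?_)
  exact add_le_add (le_nrm x j) (le_nrm y j)

lemma nrm_sub_comm (x y : Tor d M) : nrm (x - y) = nrm (y - x) := by
  rw [← nrm_neg, neg_sub]

lemma natAbs_valMinAbs_int (n : ℤ) : ((n : ZMod M).valMinAbs).natAbs ≤ n.natAbs := by
  apply ZMod.natAbs_min_of_le_div_two M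
  · simp
  · exact ZMod.natAbs_valMinAbs_le _

lemma nrm_single (j : Fin d) : nrm (Pi.single j 1 : Tor d M) ≤ 1 := by
  rw [nrm_le]
  intro i
  by_cases h : i = j
  · subst h
    simpa using natAbs_valMinAbs_int (M := M) 1
  · simp [h]

lemma abs_nrm_step (x : Tor d M) (j : Fin d) :
    |(nrm (x + Pi.single j 1) : ℝ) - nrm x| ≤ 1 := by
  have h1 := nrm_add_le x (Pi.single j 1)
  have h2 := nrm_add_le (x + Pi.single j 1) (-Pi.single j 1)
  rw [add_neg_cancel_right, nrm_neg] at h2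
  have h3 := nrm_single (M := M) j
  have h1' : (nrm (x + Pi.single j 1) : ℝ) ≤ nrm x + 1 := by exact_mod_cast (by omega)
  have h2' : (nrm x : ℝ) ≤ nrm (x + Pi.single j 1) + 1 := by exact_mod_cast (by omega)
  rw [abs_le]; constructor <;> linarith

lemma abs_exp_sub_le {a b θ : ℝ} (h : |a - b| ≤ θ) (hθ : θ ≤ 1) :
    |Real.exp (2 * a) - Real.exp (2 * b)| ≤ 4 * θ * (Real.exp a * Real.exp b) := by
  have h1 : Real.exp (2 * a) - Real.exp (2 * b) =
      (Real.exp (a - b) - 1 - (Real.exp (-(a - b)) - 1)) * (Real.exp a * Real.exp b) := by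
    rw [← Real.exp_add]
    have e1 : Real.exp (2 * a) = Real.exp (a - b) * Real.exp (a + b) := by
      rw [← Real.exp_add]; ring_nf
    have e2 : Real.exp (2 * b) = Real.exp (-(a - b)) * Real.exp (a + b) := by
      rw [← Real.exp_add]; ring_nf
    rw [e1, e2]; ring
  rw [h1, abs_mul, abs_of_pos (by positivity : 0 < Real.exp a * Real.exp b)]
  refine mul_le_mul_of_nonneg_right ?_ (by positivity)
  have h2 := Real.abs_exp_sub_one_le (x := a - b) (h.trans hθ)
  have h3 := Real.abs_exp_sub_one_le (x := -(a - b)) (by rw [abs_neg]; exact h.trans hθ)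
  rw [abs_neg] at h3
  calc _ ≤ |Real.exp (a - b) - 1| + |Real.exp (-(a - b)) - 1| := abs_sub _ _
    _ ≤ _ := by linarith

lemma sum_add_right {β : Type*} [AddCommMonoid β] (f : Tor d M → β) (u : Tor d M) :
    ∑ x, f (x + u) = ∑ x, f x := by
  rw [← Equiv.sum_comp (Equiv.addRight u) f]
  simp only [Equiv.coe_addRight]

/-- Combes–Thomas estimate with a general Lipschitz weight -/
lemma ct_weight {z : ℂ} (hz : 0 < z.im) (φ : Tor d M → ℝ) {θ : ℝ} (hθ1 : θ ≤ 1)
    (hφ : ∀ x j, |φ (x + Pi.single j 1) - φ x| ≤ θ) :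
    (z.im - 4 * d * θ) * ∑ x, Real.exp (2 * φ x) * ‖G0 z x‖ ^ 2 ≤
      Real.exp (2 * φ 0) * (G0 z (0 : Tor d M)).im := by
  set u : Tor d M → ℂ := G0 z with hu
  set W : Tor d M → ℝ := fun x => Real.exp (2 * φ x) with hW
  have h1 : ∑ x, (W x : ℂ) * conj (u x) *
      (-(∑ j, (u (x + Pi.single j 1) + u (x - Pi.single j 1))) - z * u x) =
      (W 0 : ℂ) * conj (u 0) := by
    simp only [hu, G0_eq hz, mul_ite, mul_one, mul_zero, sum_ite_eq', mem_univ, if_true]
  have h2 : ∀ j : Fin d, ∑ x, (W x : ℂ) * conj (u x) * u (x - Pi.single j 1) =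
      ∑ x, (W (x + Pi.single j 1) : ℂ) * conj (u (x + Pi.single j 1)) * u x := by
    intro j
    rw [← Equiv.sum_comp (Equiv.addRight (Pi.single j 1 : Tor d M))]
    simp
  have h3 : ∑ x, (W x : ℂ) * conj (u x) *
      (-(∑ j, (u (x + Pi.single j 1) + u (x - Pi.single j 1))) - z * u x) =
      -(∑ j, ∑ x, ((W x : ℂ) * conj (u x) * u (x + Pi.single j 1) +
        (W (x + Pi.single j 1) : ℂ) * conj (u (x + Pi.single j 1)) * u x)) -
        z * ∑ x, ((W x * ‖u x‖ ^ 2 : ℝ) : ℂ) := by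
    simp only [sum_add_distrib, ← h2]
    simp only [mul_sub, mul_neg, mul_add, mul_sum, sum_sub_distrib, sum_neg_distrib,
      sum_add_distrib]
    congr 1
    · congr 2 <;> exact sum_comm
    · refine sum_congr rfl fun x _ => ?_
      have : ((‖u x‖ ^ 2 : ℝ) : ℂ) = conj (u x) * u x := by
        rw [Complex.conj_mul', ]; push_cast; rfl
      push_cast at this ⊢
      rw [this]; ring
  rw [h3] at h1
  have h4 := congrArg Complex.im h1
  rw [← Complex.ofReal_sum] at h4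
  simp only [sub_im, neg_im, Complex.im_sum, mul_im, ofReal_re, ofReal_im, mul_zero, zero_add,
    conj_im, zero_mul, add_zero, add_im, conj_re, mul_re, sub_zero] at h4
  have h5 : ∀ (j : Fin d) (x : Tor d M),
      -(2 * θ * (W x * ‖u x‖ ^ 2 + W (x + Pi.single j 1) * ‖u (x + Pi.single j 1)‖ ^ 2)) ≤
      W x * (u x).re * (u (x + Pi.single j 1)).im + W x * -(u x).im * (u (x + Pi.single j 1)).re +
        (W (x + Pi.single j 1) * (u (x + Pi.single j 1)).re * (u x).im +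
          W (x + Pi.single j 1) * -(u (x + Pi.single j 1)).im * (u x).re) := by
    intro j x
    set y := x + Pi.single j 1
    have e1 : W x * (u x).re * (u y).im + W x * -(u x).im * (u y).re +
        (W y * (u y).re * (u x).im + W y * -(u y).im * (u x).re) =
        (W x - W y) * (conj (u x) * u y).im := by
      simp only [mul_im, conj_re, conj_im]; ring
    rw [e1]
    have e2 : |W x - W y| ≤ 4 * θ * (Real.exp (φ x) * Real.exp (φ y)) :=
      abs_exp_sub_le (by rw [abs_sub_comm]; exact hφ x j) hθ1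
    have e3 : |(conj (u x) * u y).im| ≤ ‖u x‖ * ‖u y‖ := by
      refine (Complex.abs_im_le_norm _).trans (le_of_eq ?_)
      rw [norm_mul, Complex.norm_conj]
    have hθ0 : 0 ≤ θ := (abs_nonneg _).trans (hφ x j)
    have e4 : |(W x - W y) * (conj (u x) * u y).im| ≤
        4 * θ * (Real.exp (φ x) * Real.exp (φ y)) * (‖u x‖ * ‖u y‖) := by
      rw [abs_mul]; exact mul_le_mul e2 e3 (abs_nonneg _) (by positivity)
    have e5 : W x = Real.exp (φ x) ^ 2 := by
      simp only [hW]; rw [← Real.exp_nat_mul]; norm_num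
    have e6 : W y = Real.exp (φ y) ^ 2 := by
      simp only [hW]; rw [← Real.exp_nat_mul]; norm_num
    have e7 : 2 * (Real.exp (φ x) * Real.exp (φ y)) * (‖u x‖ * ‖u y‖) ≤
        W x * ‖u x‖ ^ 2 + W y * ‖u y‖ ^ 2 := by
      rw [e5, e6]
      nlinarith [sq_nonneg (Real.exp (φ x) * ‖u x‖ - Real.exp (φ y) * ‖u y‖)]
    have e8 := neg_abs_le ((W x - W y) * (conj (u x) * u y).im)
    nlinarith
  have h6 := sum_le_sum fun (j : Fin d) (_ : j ∈ univ) =>
    sum_le_sum fun (x : Tor d M) (_ : x ∈ univ) => h5 j x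
  change (z.im - 4 * d * θ) * ∑ x, W x * ‖u x‖ ^ 2 ≤ W 0 * (u 0).im
  clear_value u W
  have h7 : ∀ j : Fin d, ∑ x : Tor d M, W (x + Pi.single j 1) * ‖u (x + Pi.single j 1)‖ ^ 2 =
      ∑ x, W x * ‖u x‖ ^ 2 := fun j =>
    sum_add_right (fun x => W x * ‖u x‖ ^ 2) (Pi.single j 1)
  simp only [sum_neg_distrib, ← mul_sum, sum_add_distrib, h7, sum_const, card_univ,
    Fintype.card_fin, nsmul_eq_mul] at h6
  simp only [sum_add_distrib] at h4
  nlinarith

/-- exponential moment of the free resolvent -/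
lemma ct {z : ℂ} (hz : 0 < z.im) {θ : ℝ} (hθ0 : 0 ≤ θ) (hθ1 : θ ≤ 1) (hθ : 8 * d * θ ≤ z.im) :
    z.im * ∑ x : Tor d M, Real.exp (2 * θ * nrm x) * ‖G0 z x‖ ^ 2 ≤
      2 * (G0 z (0 : Tor d M)).im := by
  have h := ct_weight (d := d) (M := M) hz (fun x => θ * nrm x) hθ1 (fun x j => by
    rw [← mul_sub, abs_mul, abs_of_nonneg hθ0]
    exact mul_le_of_le_one_right hθ0 (abs_nrm_step x j))
  simp only [nrm_zero, Nat.cast_zero, mul_zero, Real.exp_zero, one_mul, ← mul_assoc] at h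
  have h0 : 0 ≤ ∑ x : Tor d M, Real.exp (2 * θ * nrm x) * ‖G0 z x‖ ^ 2 :=
    sum_nonneg fun x _ => by positivity
  nlinarith

lemma im_G0_le {z : ℂ} (hz : 0 < z.im) : (G0 z (0 : Tor d M)).im ≤ z.im⁻¹ :=
  (le_abs_self _).trans ((Complex.abs_im_le_norm _).trans (norm_iF_le_of (norm_Gh_le hz) 0))

/-- pointwise decay -/
lemma norm_G0_le_exp {z : ℂ} (hz : 0 < z.im) {θ : ℝ} (hθ0 : 0 ≤ θ) (hθ1 : θ ≤ 1)
    (hθ : 8 * d * θ ≤ z.im) (x : Tor d M) :
    ‖G0 z x‖ ≤ 2 * z.im⁻¹ * Real.exp (-(θ * nrm x)) := by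
  have h := ct (d := d) (M := M) hz hθ0 hθ1 hθ
  have h1 : Real.exp (2 * θ * nrm x) * ‖G0 z x‖ ^ 2 ≤
      ∑ x : Tor d M, Real.exp (2 * θ * nrm x) * ‖G0 z x‖ ^ 2 :=
    single_le_sum (f := fun x : Tor d M => Real.exp (2 * θ * nrm x) * ‖G0 z x‖ ^ 2)
      (fun x _ => by positivity) (mem_univ x)
  have h2 := im_G0_le (d := d) (M := M) hz
  have h3 : (Real.exp (θ * nrm x) * ‖G0 z x‖) ^ 2 ≤ (2 * z.im⁻¹) ^ 2 := by
    have e : Real.exp (2 * θ * nrm x) = Real.exp (θ * nrm x) ^ 2 := by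
      rw [← Real.exp_nat_mul]; congr 1; push_cast; ring
    rw [mul_pow, ← e]
    have h4 : z.im * (Real.exp (2 * θ * nrm x) * ‖G0 z x‖ ^ 2) ≤ 2 * z.im⁻¹ := by
      nlinarith [mul_le_mul_of_nonneg_left h1 hz.le]
    have h5 : Real.exp (2 * θ * nrm x) * ‖G0 z x‖ ^ 2 ≤ z.im⁻¹ * (2 * z.im⁻¹) := by
      rw [← mul_le_mul_iff_right₀ hz, ← mul_assoc z.im z.im⁻¹, mul_inv_cancel₀ hz.ne', one_mul]
      exact h4
    nlinarith [inv_pos.2 hz, mul_pos (inv_pos.2 hz) (inv_pos.2 hz)]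
  have h6 := (pow_le_pow_iff_left₀ (by positivity) (by positivity) two_ne_zero).1 h3
  rw [Real.exp_neg, ← div_eq_mul_inv, le_div_iff₀ (Real.exp_pos _)]
  linarith

end Crest.Agent.N334.AC.I
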