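import Crest.Agent.N334.AC.I.Step

/-!
# Row 334, S0520, part I (helper24): capacity bounds for a step distribution
-/

set_option autoImplicit false
set_option linter.unusedSectionVars false

open Finset Complex
open scoped ComplexConjugate

namespace Crest.Agent.N334.AC.I

variable {d M : ℕ} [NeZero M]

lemma sum_natAbs_le (g : ℕ → ℝ) (hg : ∀ r, 0 ≤ g r) :
    ∑ a : ZMod M, g a.valMinAbs.natAbs ≤ 2 * ∑ r ∈ range (M + 1), g r := by
  rw [← sum_fiberwise_of_maps_to (s := univ) (t := range (M + 1))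
    (g := fun a : ZMod M => a.valMinAbs.natAbs) (fun a _ => mem_range.2 (by
      have := ZMod.natAbs_valMinAbs_le a; omega)), mul_sum]
  refine sum_le_sum fun r _ => ?_
  rw [sum_congr rfl (g := fun _ => g r) (fun a ha => by rw [(mem_filter.1 ha).2]), sum_const,
    nsmul_eq_mul]
  refine mul_le_mul_of_nonneg_right ?_ (hg r)
  have : (univ.filter fun a : ZMod M => a.valMinAbs.natAbs = r) ⊆ {(r : ZMod M), -(r : ZMod M)} := by
    intro a ha
    have h := (mem_filter.1 ha).2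
    rw [mem_insert, mem_singleton, ← ZMod.coe_valMinAbs a]
    rcases Int.natAbs_eq a.valMinAbs with e | e <;> rw [e, h] <;> simp
  exact_mod_cast (card_le_card this).trans card_le_two

lemma sum_rpow_le (N : ℕ) :
    ∑ r ∈ range (N + 1), (max 1 (r : ℝ)) ^ (-(5 / 6) : ℝ) ≤ 1 + 6 * (N : ℝ) ^ (1 / 6 : ℝ) := by
  induction N with
  | zero => simp
  | succ N ih =>
    rw [sum_range_succ]
    have hN : (0 : ℝ) < N + 1 := by positivity
    have h1 := rpow_one_add_le_one_add_mul_self (s := -(1 / (N + 1 : ℝ))) (p := 1 / 6)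
      (by rw [neg_le_neg_iff, div_le_one hN]; linarith [Nat.cast_nonneg (α := ℝ) N])
      (by norm_num) (by norm_num)
    have h2 : (N : ℝ) = (N + 1) * (1 + -(1 / (N + 1 : ℝ))) := by field_simp; ring
    have h3 : (N : ℝ) ^ (1 / 6 : ℝ) ≤ (N + 1) ^ (1 / 6 : ℝ) * (1 + 1 / 6 * -(1 / (N + 1 : ℝ))) := by
      conv_lhs => rw [h2]
      rw [Real.mul_rpow hN.le (by rw [← mul_nonneg_iff_of_pos_left hN, ← h2]; positivity)]
      gcongr
    have h4 : (N + 1 : ℝ) ^ (-(5 / 6) : ℝ) = (N + 1) ^ (1 / 6 : ℝ) * (1 / (N + 1 : ℝ)) := by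
      rw [show (-(5 / 6) : ℝ) = 1 / 6 - 1 by norm_num, Real.rpow_sub_one hN.ne']; ring
    push_cast
    rw [max_eq_right (by linarith [Nat.cast_nonneg (α := ℝ) N]), h4]
    linarith

/-- `√(M / |p|)` -/
noncomputable def uu (p : Tor d M) : ℝ := √((M : ℝ) / nrm p)

lemma nrm_le_M (p : Tor d M) : nrm p ≤ M :=
  nrm_le.2 fun j => (ZMod.natAbs_valMinAbs_le _).trans (Nat.div_le_self _ _)

lemma nrm_pos {p : Tor d M} (hp : p ≠ 0) : (1 : ℝ) ≤ nrm p := by
  exact_mod_cast Nat.pos_of_ne_zero (mt nrm_eq_zero.1 hp)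

lemma one_le_ratio {p : Tor d M} (hp : p ≠ 0) : 1 ≤ (M : ℝ) / nrm p := by
  rw [one_le_div (by linarith [nrm_pos hp])]; exact_mod_cast nrm_le_M p

lemma one_le_uu {p : Tor d M} (hp : p ≠ 0) : 1 ≤ uu p := Real.one_le_sqrt.2 (one_le_ratio hp)

lemma uu_nonneg (p : Tor d M) : 0 ≤ uu p := Real.sqrt_nonneg _

lemma av_uu (hd : 3 ≤ d) : av (fun p : Tor d M => uu p ^ 5) ≤ 14 ^ d := by
  have hM : (0 : ℝ) < M := Nat.cast_pos.2 (NeZero.pos M)
  have hM1 : (1 : ℝ) ≤ M := by exact_mod_cast NeZero.pos M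
  let f : ZMod M → ℝ := fun a =>
    (M : ℝ) ^ (5 / 6 : ℝ) * (max 1 (a.valMinAbs.natAbs : ℝ)) ^ (-(5 / 6) : ℝ)
  have h1 : ∀ p : Tor d M, uu p ^ 5 ≤ ∏ j, f (p j) := by
    intro p
    by_cases hp : p = 0
    · simp only [hp, uu, nrm_zero, Nat.cast_zero, div_zero, Real.sqrt_zero]
      exact le_trans (by norm_num) (prod_nonneg fun j _ => by positivity)
    have h0 := one_le_ratio hp
    have e1 : uu p ^ 5 = (((M : ℝ) / nrm p) ^ (5 / 6 : ℝ)) ^ 3 := by
      rw [uu, Real.sqrt_eq_rpow, ← Real.rpow_mul_natCast (by positivity),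
        ← Real.rpow_mul_natCast (by positivity)]
      norm_num
    rw [e1]
    calc _ ≤ (((M : ℝ) / nrm p) ^ (5 / 6 : ℝ)) ^ d :=
          pow_le_pow_right₀ (Real.one_le_rpow h0 (by norm_num)) hd
      _ = ∏ _j : Fin d, ((M : ℝ) / nrm p) ^ (5 / 6 : ℝ) := by simp
      _ ≤ _ := by
        refine prod_le_prod (fun j _ => by positivity) fun j _ => ?_
        simp only [f]
        rw [Real.rpow_neg (by positivity), ← div_eq_mul_inv, ← Real.div_rpow hM.le (by positivity)]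
        have : max 1 ((p j).valMinAbs.natAbs : ℝ) ≤ nrm p :=
          max_le (nrm_pos hp) (by exact_mod_cast le_nrm p j)
        gcongr
  have h2 : ∑ a, f a ≤ 14 * M := by
    simp only [f, ← mul_sum]
    have e1 := sum_natAbs_le (M := M) (fun r => (max 1 (r : ℝ)) ^ (-(5 / 6) : ℝ))
      fun r => by positivity
    have e2 := sum_rpow_le M
    have e3 : 1 ≤ (M : ℝ) ^ (1 / 6 : ℝ) := Real.one_le_rpow hM1 (by norm_num)
    have e4 : (M : ℝ) ^ (5 / 6 : ℝ) * (M : ℝ) ^ (1 / 6 : ℝ) = M := by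
      rw [← Real.rpow_add hM]; norm_num
    calc _ ≤ (M : ℝ) ^ (5 / 6 : ℝ) * (14 * (M : ℝ) ^ (1 / 6 : ℝ)) := by gcongr; linarith
      _ = _ := by rw [mul_left_comm, e4]
  refine (av_mono h1).trans ?_
  unfold av
  rw [← Fintype.piFinset_univ, ← Finset.prod_univ_sum (fun _ => univ) (fun _ a => f a),
    inv_mul_le_iff₀ vol_pos, prod_const, card_univ, Fintype.card_fin, vol, ← mul_pow, mul_comm]
  exact pow_le_pow_left₀ (sum_nonneg fun a _ => by positivity) h2 d

lemma uu_pow_four (p : Tor d M) : uu p ^ 4 = ((M : ℝ) / nrm p) ^ 2 := by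
  rw [show 4 = 2 * 2 by norm_num, pow_mul, uu, Real.sq_sqrt (by positivity)]

lemma inv_mm_le {γ : ℝ} (hγ : 0 < γ) {p : Tor d M} (hp : p ≠ 0) :
    (mm γ p)⁻¹ ≤ 1 + γ ^ 2 * uu p ^ 4 ∧ (γ ≤ 1 → (mm γ p)⁻¹ ≤ uu p ^ 4) := by
  have hM : (0 : ℝ) < M := Nat.cast_pos.2 (NeZero.pos M)
  have h1 := nrm_pos hp
  have h2 : 1 ≤ uu p ^ 4 := one_le_pow₀ (one_le_uu hp)
  have e : (((nrm p : ℝ) / (γ * M)) ^ 2)⁻¹ = γ ^ 2 * uu p ^ 4 := by
    rw [uu_pow_four]; field_simp
  unfold mm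
  rcases min_choice 1 (((nrm p : ℝ) / (γ * M)) ^ 2) with h | h <;> rw [h]
  · exact ⟨by rw [inv_one]; nlinarith [sq_nonneg γ], fun _ => by rwa [inv_one]⟩
  · rw [e]
    exact ⟨by linarith, fun h => mul_le_of_le_one_left (by linarith) (by nlinarith)⟩

lemma wt_le (l p : _) : wt (d := d) (M := M) l p ≤ (∑ x, |l x|) ^ 2 := by
  refine pow_le_pow_left₀ (norm_nonneg _) ((norm_sum_le _ _).trans (le_of_eq ?_)) 2
  simp

lemma av_hat_sq {π : Tor d M → ℝ} (he : ∀ x, π (-x) = π x) :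
    av (fun p => hat π p ^ 2) = ∑ x, π x ^ 2 := by
  rw [sum_sq_eq]; congr 1; funext p
  rw [wt, fF_even he, Complex.norm_real, Real.norm_eq_abs, sq_abs]

lemma card_core (hd : 1 ≤ d) (hM : 8 ≤ M) :
    ∑ x : Tor d M, (if x ∈ absb d M then (0 : ℝ) else 1) ≤ 4 / 5 * vol d M := by
  have hM0 : (0 : ℝ) < M := Nat.cast_pos.2 (NeZero.pos M)
  have h := sum_update (fun x : Tor d M => if x ∈ absb d M then (0 : ℝ) else 1) ⟨0, hd⟩
  have h2 : ∀ k : Tor d M, ∑ a : ZMod M,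
      (if Function.update k ⟨0, hd⟩ a ∈ absb d M then (0 : ℝ) else 1) ≤ 4 / 5 * M := by
    intro k
    have e := sum_window (M := M) (-(M / 4 : ℕ)) (2 * (M / 4) + 1) (by omega) (by omega)
      (fun _ => (1 : ℝ))
    simp only [sum_const, card_range, nsmul_eq_mul, mul_one] at e
    have e2 : ((2 * (M / 4) + 1 : ℕ) : ℝ) * 5 ≤ 4 * M := by exact_mod_cast (by omega)
    refine le_trans (sum_le_sum fun a _ => ?_) (e.le.trans (by linarith))
    split_ifs with c1 c2 c2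
    · exact zero_le_one
    · rfl
    · rfl
    · exfalso; apply c1
      simp only [absb, mem_filter, mem_univ, true_and]
      exact ⟨⟨0, hd⟩, rfl, by rw [Function.update_self]; omega⟩
  have h3 := sum_le_sum fun (k : Tor d M) (_ : k ∈ univ) => h2 k
  rw [h, sum_const, card_univ, nsmul_eq_mul, card_tor] at h3
  rw [← mul_le_mul_iff_right₀ hM0]; linarith

lemma av_split (F : Tor d M → ℝ) :
    av F = (vol d M)⁻¹ * F 0 + av fun p => if p = 0 then 0 else F p := by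
  unfold av
  rw [← mul_add]; congr 1
  have : ∀ p : Tor d M, F p = (if p = 0 then F 0 else 0) + if p = 0 then 0 else F p := by
    intro p; split_ifs with h <;> simp [h]
  rw [sum_congr rfl fun p _ => this p, sum_add_distrib]; simp

lemma zero_mode (hd : 1 ≤ d) (hM : 8 ≤ M) {ψ : Tor d M → ℝ} (hψ : Van ψ) :
    (vol d M)⁻¹ * wt ψ 0 ≤ 4 * av fun p => if p = 0 then 0 else wt ψ p := by
  have h1 := av_split (wt ψ)
  rw [← sum_sq_eq] at h1
  have h2 : wt ψ 0 = (∑ x, ψ x) ^ 2 := by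
    simp only [wt, fF, ch_zero', mul_one]
    rw [← Complex.ofReal_sum, Complex.norm_real, Real.norm_eq_abs, sq_abs]
  have h3 : (∑ x, ψ x) ^ 2 ≤ (∑ x : Tor d M, if x ∈ absb d M then (0 : ℝ) else 1) * ∑ x, ψ x ^ 2 := by
    refine sum_sq_le_sum_mul_sum_of_sq_le_mul _ (fun x _ => by positivity) (fun x _ => sq_nonneg _)
      fun x _ => ?_
    split_ifs with h
    · simp [hψ x h]
    · simp
  have h4 : (vol d M)⁻¹ * wt ψ 0 ≤ 4 / 5 * ∑ x, ψ x ^ 2 := by
    rw [inv_mul_le_iff₀ vol_pos, h2]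
    have := mul_le_mul_of_nonneg_right (card_core hd hM) (sum_nonneg fun x (_ : x ∈ univ) =>
      sq_nonneg (ψ x))
    linarith
  linarith

/-- weak duality -/
lemma Step.dual {π : Tor d M → ℝ} {γ c : ℝ} (h : Step π γ c) (hd : 1 ≤ d) (hM : 8 ≤ M)
    (l : Tor d M → ℝ) {ψ : Tor d M → ℝ} (hψ : Van ψ) {t : ℝ} (ht : 0 < t) :
    (∑ x, l x * ψ x) ^ 2 ≤ (1 + t) * ((av fun p => if p = 0 then 0 else wt l p / (1 - hat π p)) +
      4 * (1 + (γ * M) ^ 2) / (c * t * vol d M) * (∑ x, |l x|) ^ 2) * Dir π ψ := by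
  have hM0 : (0 : ℝ) < M := Nat.cast_pos.2 (NeZero.pos M)
  have hγ := h.γ_pos
  have hc := h.c_pos
  have hv := vol_pos (d := d) (M := M)
  set b := c / (4 * (1 + (γ * M) ^ 2)) with hb
  have hb0 : 0 < b := by positivity
  have hlam : ∀ p : Tor d M, p ≠ 0 → 4 * b ≤ 1 - hat π p := by
    intro p hp
    refine le_trans ?_ (h.le_lam p)
    have e1 := (inv_mm_le hγ hp).1
    have e2 : uu p ^ 4 ≤ M ^ 2 := by
      rw [uu_pow_four]; gcongr; exact div_le_self hM0.le (nrm_pos hp)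
    have e3 : (1 + (γ * M) ^ 2)⁻¹ ≤ mm γ p :=
      inv_le_of_inv_le₀ (mm_pos hγ hp) (e1.trans (by rw [mul_pow]; gcongr))
    calc 4 * b = c * (1 + (γ * M) ^ 2)⁻¹ := by rw [hb]; field_simp
      _ ≤ _ := by gcongr
  let lam : Tor d M → ℝ := fun p => if p = 0 then t * b else 1 - hat π p
  have hl0 : ∀ p, 0 < lam p := by
    intro p; simp only [lam]; split_ifs with hp
    · positivity
    · linarith [hlam p hp]
  have h1 : |∑ x, l x * ψ x| ≤
      av fun p => ‖fF (fun x => (l x : ℂ)) p‖ * ‖fF (fun x => (ψ x : ℂ)) p‖ := by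
    have e := parseval' (fF fun x => (l x : ℂ)) (fF fun x => (ψ x : ℂ))
    simp only [iF_fF, Complex.conj_ofReal, ← Complex.ofReal_mul] at e
    rw [← Complex.ofReal_sum] at e
    rw [← Real.norm_eq_abs, ← Complex.norm_real, e, norm_mul, norm_inv, Complex.norm_real,
      Real.norm_of_nonneg hv.le]
    refine mul_le_mul_of_nonneg_left ((norm_sum_le _ _).trans (le_of_eq ?_)) (by positivity)
    simp
  have h2 : (av fun p => ‖fF (fun x => (l x : ℂ)) p‖ * ‖fF (fun x => (ψ x : ℂ)) p‖) ^ 2 ≤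
      (av fun p => wt l p / lam p) * av fun p => lam p * wt ψ p := by
    unfold av
    rw [mul_pow, mul_mul_mul_comm, sq]
    refine mul_le_mul_of_nonneg_left (sum_sq_le_sum_mul_sum_of_sq_le_mul _
      (fun p _ => div_nonneg (wt_nonneg _ _) (hl0 p).le)
      (fun p _ => mul_nonneg (hl0 p).le (wt_nonneg _ _)) fun p _ => le_of_eq ?_) (by positivity)
    have := (hl0 p).ne'
    simp only [wt]; field_simp
  have h3 : (av fun p => if p = 0 then 0 else (1 - hat π p) * wt ψ p) ≤ Dir π ψ := by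
    rw [Dir_eq h.sum_one]
    refine av_mono fun p => ?_
    split_ifs
    · exact mul_nonneg (by nlinarith [h.le_lam p, mm_nonneg γ p]) (wt_nonneg _ _)
    · rfl
  have h4 : (av fun p => lam p * wt ψ p) ≤ (1 + t) * Dir π ψ := by
    rw [av_split]
    have e1 : (av fun p => if p = 0 then 0 else lam p * wt ψ p) ≤ Dir π ψ :=
      le_trans (av_mono fun p => by split_ifs with hp <;> simp [lam, hp]) h3
    have e2 : 4 * b * (av fun p => if p = 0 then 0 else wt ψ p) ≤ Dir π ψ := by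
      rw [← av_mul]
      refine le_trans (av_mono fun p => ?_) h3
      split_ifs with hp
      · simp
      · exact mul_le_mul_of_nonneg_right (hlam p hp) (wt_nonneg _ _)
    have e3 := mul_le_mul_of_nonneg_left (zero_mode hd hM hψ) (mul_pos ht hb0).le
    simp only [lam, if_true]
    nlinarith
  have h5 : (av fun p => wt l p / lam p) ≤
      (av fun p => if p = 0 then 0 else wt l p / (1 - hat π p)) +
      4 * (1 + (γ * M) ^ 2) / (c * t * vol d M) * (∑ x, |l x|) ^ 2 := by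
    rw [av_split, add_comm]
    refine add_le_add (av_mono fun p => by split_ifs with hp <;> simp [lam, hp]) ?_
    simp only [lam, if_true]
    calc _ ≤ (vol d M)⁻¹ * ((∑ x, |l x|) ^ 2 / (t * b)) := by gcongr; exact wt_le l 0
      _ = _ := by rw [hb]; field_simp
  have h6 : 0 ≤ av fun p => wt l p / lam p :=
    av_nonneg fun p => div_nonneg (wt_nonneg _ _) (hl0 p).le
  have h7 := h.Dir_nonneg ψ
  calc _ = |∑ x, l x * ψ x| ^ 2 := (sq_abs _).symm
    _ ≤ _ := pow_le_pow_left₀ (abs_nonneg _) h1 2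
    _ ≤ _ := h2
    _ ≤ (av fun p => wt l p / lam p) * ((1 + t) * Dir π ψ) := by gcongr
    _ = (1 + t) * (av fun p => wt l p / lam p) * Dir π ψ := by ring
    _ ≤ _ := by gcongr

lemma Step.av_rem {π : Tor d M → ℝ} {γ c : ℝ} (h : Step π γ c) (hd : 3 ≤ d) :
    (av fun p : Tor d M => if p = 0 then 0 else hat π p ^ 2 / (c * mm γ p)) ≤
      (∑ x, π x ^ 2 + 14 ^ d * γ ^ 2) / c := by
  have hc := h.c_pos
  have : (av fun p : Tor d M => if p = 0 then 0 else hat π p ^ 2 / (c * mm γ p)) ≤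
      av fun p : Tor d M => c⁻¹ * (hat π p ^ 2 + γ ^ 2 * uu p ^ 5) := by
    refine av_mono fun p => ?_
    split_ifs with hp
    · have := uu_nonneg p; positivity
    have e1 := (inv_mm_le h.γ_pos hp).1
    have e2 : hat π p ^ 2 ≤ 1 := by
      rw [sq_le_one_iff_abs_le_one]; nlinarith [h.symb p, mm_nonneg γ p]
    have e3 : uu p ^ 4 ≤ uu p ^ 5 := pow_le_pow_right₀ (one_le_uu hp) (by norm_num)
    have e4 : 0 ≤ γ ^ 2 * uu p ^ 4 := by positivity
    calc _ = c⁻¹ * (hat π p ^ 2 * (mm γ p)⁻¹) := by field_simp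
      _ ≤ c⁻¹ * (hat π p ^ 2 * (1 + γ ^ 2 * uu p ^ 4)) := by gcongr
      _ ≤ _ := by
        gcongr
        nlinarith [mul_le_mul_of_nonneg_left e3 (sq_nonneg γ)]
  refine this.trans ?_
  rw [av_mul, av_add, av_mul, av_hat_sq h.even, div_eq_inv_mul]
  have := mul_le_mul_of_nonneg_left (av_uu (M := M) hd) (sq_nonneg γ)
  exact mul_le_mul_of_nonneg_left (by linarith) (by positivity)

theorem Step.cap1 {π : Tor d M → ℝ} {γ c : ℝ} (h : Step π γ c) (hd : 3 ≤ d) (hM : 8 ≤ M)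
    (l : Tor d M → ℝ) {ψ : Tor d M → ℝ} (hψ : Van ψ) {ε : ℝ} (hε : 0 < ε) (hε1 : ε ≤ 1) :
    (∑ x, l x * ψ x) ^ 2 ≤ ((1 + ε) * ∑ x, l x ^ 2 + 24 / (c * ε) * (∑ x, π x ^ 2 + 14 ^ d * γ ^ 2 +
      (1 + (γ * M) ^ 2) / vol d M) * (∑ x, |l x|) ^ 2) * Dir π ψ := by
  have hc := h.c_pos
  have hc1 := h.c_le
  have hv := vol_pos (d := d) (M := M)
  refine (h.dual (by omega) hM l hψ (t := ε / 3) (by positivity)).trans
    (mul_le_mul_of_nonneg_right ?_ (h.Dir_nonneg ψ))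
  set L := (∑ x, |l x|) ^ 2
  have hL : 0 ≤ L := sq_nonneg _
  have h1 : (av fun p => if p = 0 then 0 else wt l p / (1 - hat π p)) ≤
      av fun p => (1 + ε / 3) * wt l p + (L / ε * hat π p ^ 2 +
        L * if p = 0 then 0 else hat π p ^ 2 / (c * mm γ p)) := by
    refine av_mono fun p => ?_
    have w0 := wt_nonneg l p
    have w1 := wt_le l p
    split_ifs with hp
    · positivity
    have m0 := mul_pos hc (mm_pos h.γ_pos hp)
    have l0 := m0.trans_le (h.le_lam p)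
    have e1 : wt l p / (1 - hat π p) =
        wt l p + wt l p * hat π p + wt l p * (hat π p ^ 2 / (1 - hat π p)) := by field_simp; ring
    have e2 : hat π p ^ 2 / (1 - hat π p) ≤ hat π p ^ 2 / (c * mm γ p) := by
      gcongr; exact h.le_lam p
    have e3 : hat π p ≤ ε / 3 + hat π p ^ 2 / ε := by
      rw [← sub_le_iff_le_add', le_div_iff₀ hε]; nlinarith [sq_nonneg (hat π p - ε / 2)]
    have e4 : wt l p * (hat π p ^ 2 / ε) ≤ L / ε * hat π p ^ 2 := by
      rw [div_mul_eq_mul_div, mul_div_assoc]; gcongr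
    have e5 : wt l p * (hat π p ^ 2 / (1 - hat π p)) ≤ L * (hat π p ^ 2 / (c * mm γ p)) := by gcongr
    nlinarith [mul_le_mul_of_nonneg_left e3 w0]
  rw [av_add, av_add, av_mul, av_mul, av_mul, ← sum_sq_eq, av_hat_sq h.even] at h1
  have h2 := mul_le_mul_of_nonneg_left (h.av_rem hd) hL
  set q := ∑ x, π x ^ 2
  have hq : 0 ≤ q := sum_nonneg fun _ _ => sq_nonneg _
  set s := ∑ x, l x ^ 2
  have hs : 0 ≤ s := sum_nonneg fun _ _ => sq_nonneg _
  set g : ℝ := 14 ^ d * γ ^ 2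
  have hg : 0 ≤ g := by positivity
  set B := (1 + (γ * M) ^ 2) / vol d M with hB
  have hB0 : 0 ≤ B := by positivity
  set κ := L / (c * ε) with hκ
  have hκ0 : 0 ≤ κ := by positivity
  have e1 : L / ε * q ≤ κ * q := by rw [hκ]; gcongr; nlinarith
  have e2 : L * ((q + g) / c) ≤ κ * (q + g) := by
    rw [hκ, div_mul_eq_mul_div, mul_div_assoc]; gcongr; nlinarith
  have e3 : 4 * (1 + (γ * M) ^ 2) / (c * (ε / 3) * vol d M) * L = 12 * (κ * B) := by
    rw [hκ, hB]; field_simp; ring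
  have e4 : 24 / (c * ε) * (q + g + B) * L = 24 * (κ * q + κ * g + κ * B) := by rw [hκ]; ring
  rw [e3, e4]
  have e5 : (1 + ε / 3) * ((1 + ε / 3) * s) ≤ (1 + ε) * s := by nlinarith [mul_nonneg hε.le hs]
  have e6 : 0 ≤ κ * q := by positivity
  have e7 : 0 ≤ κ * g := by positivity
  have e8 : 0 ≤ κ * B := by positivity
  nlinarith

end Crest.Agent.N334.AC.I
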