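import Crest.Agent.N334.AC.I.Step

/-!
# Row 334, S0520, part I: the Hadamard square of the free resolvent
(typed by helper66 after helper24's sketch)
-/

set_option autoImplicit false
set_option linter.unusedSectionVars false

open Finset Complex MeasureTheory
open scoped ComplexConjugate Matrix.Norms.L2Operator

namespace Crest.Agent.N334.AC.I

variable {d M : ℕ} [NeZero M]

namespace RR

lemma fF_conv (f v : Tor d M → ℂ) (p : Tor d M) :
    fF (fun x => ∑ y, f (x - y) * v y) p = fF f p * fF v p := by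
  unfold fF
  simp only [sum_mul]
  rw [sum_comm]
  simp only [mul_sum]
  rw [sum_comm (f := fun x y => f x * ch p (-x) * (v y * ch p (-y)))]
  refine sum_congr rfl fun y _ => ?_
  rw [← Equiv.sum_comp (Equiv.addRight y) (fun x => f (x - y) * v y * ch p (-x))]
  refine sum_congr rfl fun x _ => ?_
  simp only [Equiv.coe_addRight, add_sub_cancel_right, neg_add, ch_add]
  ring

/-- the operator norm of a circulant matrix -/
lemma norm_circ_le (f : Tor d M → ℂ) {c : ℝ} (hc : 0 ≤ c) (h : ∀ p, ‖fF f p‖ ≤ c) :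
    ‖(Matrix.of fun x y : Tor d M => f (x - y))‖ ≤ c := by
  rw [Matrix.cstar_norm_def]
  refine ContinuousLinearMap.opNorm_le_bound _ hc fun v => ?_
  refine (sq_le_sq₀ (norm_nonneg _) (by positivity)).1 ?_
  rw [mul_pow, EuclideanSpace.norm_sq_eq, EuclideanSpace.norm_sq_eq, parseval_fF, parseval_fF,
    ← av_mul]
  refine av_mono fun p => ?_
  have e : (Matrix.toEuclideanCLM (n := Tor d M) (𝕜 := ℂ)
      (Matrix.of fun x y : Tor d M => f (x - y)) v).ofLp = fun x => ∑ y, f (x - y) * v.ofLp y := rfl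
  rw [e, fF_conv, norm_mul, mul_pow]
  gcongr
  exact h p

lemma fF_sq (z : ℂ) (p : Tor d M) :
    fF (fun x => G0 z x * G0 z x) p = ((vol d M : ℝ) : ℂ)⁻¹ * ∑ k, Gh z k * Gh z (k - p) := by
  have e : ∀ x, G0 z x * G0 z x * ch p (-x) = iF (Gh z) x * iF (fun k => Gh z (k - -p)) x := by
    intro x
    rw [← iF_mul_ch, ch_neg_neg, mul_assoc]; rfl
  unfold fF
  simp only [e]
  rw [sum_iF_mul]
  congr 1
  refine sum_congr rfl fun k _ => ?_
  rw [fF_iF, show -k - -p = -(k - p) by abel]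
  simp only [Gh, eps_neg]

lemma sum_Gh_eq {z : ℂ} (hz : 0 < z.im) (a : Tor d M → ℂ) (τ : Tor d M → Tor d M) :
    ∑ k, a k * Gh z (τ k) = I * ∫ t in Set.Ioi (0 : ℝ), exp (I * z * t) *
      ∑ k, a k * exp (((-(t * eps (τ k)) : ℝ) : ℂ) * I) := by
  let F : Tor d M → ℝ → ℂ := fun k t => a k *
    (exp (I * z * t) * exp (((-(t * eps (τ k)) : ℝ) : ℂ) * I))
  have e : ∀ t : ℝ, exp (I * z * t) * ∑ k, a k * exp (((-(t * eps (τ k)) : ℝ) : ℂ) * I)
      = ∑ k, F k t := by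
    intro t
    simp only [mul_sum, F]
    exact sum_congr rfl fun k _ => by ring
  have hF : ∀ k, IntegrableOn (F k) (Set.Ioi 0) := fun k => (Gh_eq_int hz (τ k)).1.const_mul _
  simp only [e]
  rw [integral_finsetSum _ fun k _ => hF k]
  simp only [mul_sum, F, integral_const_mul]
  refine sum_congr rfl fun k _ => ?_
  rw [(Gh_eq_int hz (τ k)).2]
  ring

/-- the two-time kernel -/
lemma two_time (t : ℝ) {s : ℝ} (hs : s ≠ 0) (p : Tor d M) :
    ∑ k, (if In k ∧ In (k - p) then ((vol d M : ℝ) : ℂ)⁻¹ else 0) *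
      exp (((-(t * eps k) : ℝ) : ℂ) * I) * exp (((-(s * eps (k - p)) : ℝ) : ℂ) * I)
      = ∏ j, ker2 t s (p j) 0 := by
  unfold ker2
  rw [prod_mul_distrib, prod_const, card_univ, Fintype.card_fin, Finset.prod_univ_sum,
    Fintype.piFinset_univ, mul_sum]
  refine sum_congr rfl fun k _ => ?_
  rw [prod_ite_zero]
  simp only [mem_univ, forall_true_left, hs, false_or, In, ite_mul, zero_mul, forall_and,
    Pi.sub_apply, mul_zero, AddChar.map_zero_eq_one, mul_one, mul_ite]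
  split_ifs
  · rw [mul_assoc, ← Complex.exp_add, ← Complex.exp_sum, ← sum_mul, ← add_mul]
    congr 1
    · simp [vol]
    congr 2
    simp only [eps, mul_neg, neg_neg, mul_sum, Pi.sub_apply]
    push_cast
    rw [← sum_add_distrib]
    exact sum_congr rfl fun j _ => by ring
  · rfl

lemma norm_two_time (hd : 3 ≤ d) (hM : 32 ≤ M) {t s : ℝ} (ht : 0 ≤ t) (hs : 0 ≤ s) (p : Tor d M) :
    ‖∏ j, ker2 t s (p j) (0 : ZMod M)‖ ≤
      5832 * (√(1 + (t + s)) ^ 3)⁻¹ + 8 * (1 + t) / M * (1 + s) := by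
  rw [norm_prod]
  have hM0 : (0 : ℝ) < M := Nat.cast_pos.2 (NeZero.pos M)
  refine (prod_le_cube hd _ (a := 9 / √(1 + (t + s))) (b := 4 * ((1 + t) * (1 + s)) / M)
    (fun j => norm_nonneg _) (fun j => norm_ker2_le_one _ _ _ _) (by positivity) (by positivity)
    fun j => ?_).trans (le_of_eq (by ring))
  refine (norm_ker2_le' hM ht hs (p j) 0).trans ?_
  simp only [ZMod.valMinAbs_zero, Int.natAbs_zero, Nat.cast_zero, add_zero]
  gcongr
  nlinarith [mul_nonneg ht hs]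

lemma int_step {γ : ℝ} (hγ : 0 < γ) (hγ1 : γ ≤ 1) {z : ℂ} (hz : γ ≤ z.im) (F : ℝ → ℂ)
    (a g : ℝ → ℝ) (hg : IntegrableOn g (Set.Ioi 0)) {B : ℝ} (hB : 0 ≤ B)
    (hF : ∀ t, 0 < t → ‖F t‖ ≤ a t + B * (1 + t)) (ha : ∀ t, 0 < t → Real.exp (-γ * t) * a t ≤ g t) :
    ‖∫ t in Set.Ioi (0 : ℝ), exp (I * z * t) * F t‖ ≤
      (∫ t in Set.Ioi (0 : ℝ), g t) + B * (4 / γ ^ 2) := by
  have hγ2 : -(γ / 2) < 0 := by linarith
  have hi := integrableOn_exp_mul_Ioi hγ2 0
  have hb : ‖∫ t in Set.Ioi (0 : ℝ), exp (I * z * t) * F t‖ ≤ ∫ t in Set.Ioi (0 : ℝ),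
      (g t + B * (2 / γ) * Real.exp (-(γ / 2) * t)) := by
    refine norm_integral_le_of_norm_le (hg.add (hi.const_mul _)) ?_
    refine (ae_restrict_iff' measurableSet_Ioi).2 (Filter.Eventually.of_forall fun t ht => ?_)
    have ht : 0 < t := ht
    rw [norm_mul]
    refine (mul_le_mul (norm_exp_Iz hz ht.le) (hF t ht) (norm_nonneg _)
      (Real.exp_pos _).le).trans ?_
    rw [mul_add]
    refine add_le_add (ha t ht) ?_
    have e1 : Real.exp (-γ * t) = Real.exp (-(γ / 2) * t) * Real.exp (-(γ / 2) * t) := by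
      rw [← Real.exp_add]; ring_nf
    have e2 : (1 + t) * Real.exp (-(γ / 2) * t) ≤ 2 / γ := by
      have := Real.add_one_le_exp (γ / 2 * t)
      rw [neg_mul, Real.exp_neg, ← div_eq_mul_inv, div_le_div_iff₀ (Real.exp_pos _) hγ]
      nlinarith
    calc Real.exp (-γ * t) * (B * (1 + t))
        = B * ((1 + t) * Real.exp (-(γ / 2) * t)) * Real.exp (-(γ / 2) * t) := by rw [e1]; ring
      _ ≤ _ := by gcongr
  refine hb.trans (le_of_eq ?_)
  rw [integral_add hg (hi.const_mul _), integral_const_mul, integral_exp_mul_Ioi hγ2]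
  simp only [mul_zero, Real.exp_zero]
  field_simp
  ring

lemma int_cube' {t : ℝ} (ht : 0 ≤ t) :
    IntegrableOn (fun s : ℝ => (√(1 + (t + s)) ^ 3)⁻¹) (Set.Ioi 0) ∧
    ∫ s in Set.Ioi (0 : ℝ), (√(1 + (t + s)) ^ 3)⁻¹ = 2 * (√(1 + t))⁻¹ := by
  have hd : ∀ s ∈ Set.Ici (0 : ℝ),
      HasDerivAt (fun s => -2 * (√(1 + (t + s)))⁻¹) (√(1 + (t + s)) ^ 3)⁻¹ s := by
    intro s hs
    have hs : 0 ≤ s := hs
    have hr : 0 < √(1 + (t + s)) := Real.sqrt_pos.2 (by linarith)
    have h1 : HasDerivAt (fun s => √(1 + (t + s))) (1 / (2 * √(1 + (t + s)))) s :=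
      (hasDerivAt_r (t := t + s) (by linarith)).comp_const_add t s
    refine ((h1.inv hr.ne').const_mul (-2)).congr_deriv ?_
    field_simp
  have hl : Filter.Tendsto (fun s : ℝ => -2 * (√(1 + (t + s)))⁻¹) Filter.atTop (nhds 0) := by
    simpa using (tendsto_inv_atTop_zero.comp (tendsto_r.comp
      (Filter.tendsto_atTop_add_const_left _ t Filter.tendsto_id))).const_mul (-2)
  refine ⟨integrableOn_Ioi_deriv_of_nonneg' hd (fun t _ => by positivity) hl, ?_⟩
  rw [integral_Ioi_of_hasDerivAt_of_nonneg' hd (fun t _ => by positivity) hl]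
  simp

/-- the inner-inner part -/
lemma norm_inner_le (hd : 3 ≤ d) (hM : 32 ≤ M) {z : ℂ} (hz : 0 < z.im) (hz1 : z.im ≤ 1)
    (p : Tor d M) :
    ‖∑ k, (if In k ∧ In (k - p) then ((vol d M : ℝ) : ℂ)⁻¹ else 0) * Gh z (k - p) * Gh z k‖ ≤
      93312 / √z.im + 128 / z.im ^ 4 / M := by
  have hM0 : (0 : ℝ) < M := Nat.cast_pos.2 (NeZero.pos M)
  set γ := z.im with hγ
  have ha : 0 < √γ := Real.sqrt_pos.2 hz
  have ha2 : √γ ^ 2 = γ := Real.sq_sqrt hz.le
  rw [sum_Gh_eq hz _ fun k => k, norm_mul, Complex.norm_I, one_mul]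
  refine (int_step hz hz1 le_rfl _ (fun t => 11664 * (√(1 + t))⁻¹) _
    ((int_hold ha).1.const_mul (46656 / γ)) (B := 8 / M * (4 / γ ^ 2)) (by positivity)
    (fun t ht => ?_) fun t ht => ?_).trans ?_
  · have e : ∑ k, (if In k ∧ In (k - p) then ((vol d M : ℝ) : ℂ)⁻¹ else 0) * Gh z (k - p) *
        exp (((-(t * eps k) : ℝ) : ℂ) * I) = ∑ k, (if In k ∧ In (k - p) then
          ((vol d M : ℝ) : ℂ)⁻¹ else 0) * exp (((-(t * eps k) : ℝ) : ℂ) * I) * Gh z (k - p) :=
      sum_congr rfl fun k _ => by ring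
    rw [e, sum_Gh_eq hz _ fun k => k - p, norm_mul, Complex.norm_I, one_mul]
    refine (int_step hz hz1 le_rfl _ (fun s => 5832 * (√(1 + (t + s)) ^ 3)⁻¹) _
      ((int_cube' ht.le).1.const_mul 5832) (B := 8 * (1 + t) / M) (by positivity)
      (fun s hs => ?_) fun s hs => ?_).trans (le_of_eq ?_)
    · rw [two_time t hs.ne' p]
      exact norm_two_time hd hM ht.le hs.le p
    · exact mul_le_of_le_one_left (by positivity) (Real.exp_le_one_iff.2 (by nlinarith))
    · rw [integral_const_mul, (int_cube' ht.le).2]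
      ring
  · have hr : 0 < √(1 + t) := Real.sqrt_pos.2 (by linarith)
    have hr2 : √(1 + t) ^ 2 = 1 + t := Real.sq_sqrt (by linarith)
    set r := √(1 + t)
    set a := √γ
    have h1 : (1 + a * r) ^ 2 ≤ 4 * Real.exp (γ * t) := by
      have e1 := Real.add_one_le_exp (γ * t)
      have e2 : (a * r) ^ 2 = γ * (1 + t) := by rw [mul_pow, ha2, hr2]
      nlinarith [sq_nonneg (1 - a * r), mul_pos hz ht]
    have h2 : Real.exp (-γ * t) ≤ 4 * ((1 + a * r) ^ 2)⁻¹ := by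
      rw [neg_mul, Real.exp_neg, ← div_eq_mul_inv, ← one_div, div_le_div_iff₀ (Real.exp_pos _)
        (by positivity)]
      linarith
    calc Real.exp (-γ * t) * (11664 * r⁻¹) ≤ 4 * ((1 + a * r) ^ 2)⁻¹ * (11664 * r⁻¹) := by gcongr
      _ = _ := by rw [ha2]; field_simp; norm_num
  · rw [integral_const_mul]
    refine add_le_add ((mul_le_mul_of_nonneg_left (int_hold ha).2 (by positivity)).trans_eq ?_)
      (le_of_eq (by field_simp; norm_num))
    conv_lhs => rw [← ha2]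
    rw [Real.sqrt_sq ha.le]
    field_simp
    norm_num

lemma av_Gh_le {z : ℂ} (hz : 0 < z.im) {B : ℝ} (hB : ‖G0 z (0 : Tor d M)‖ ≤ B) :
    av (fun k : Tor d M => ‖Gh z k‖) ≤ (B + 1) / 2 / √z.im := by
  have ha : 0 < √z.im := Real.sqrt_pos.2 hz
  have ha2 : √z.im ^ 2 = z.im := Real.sq_sqrt hz.le
  have h1 : av (fun k : Tor d M => (Gh z k).im) ≤ B := by
    rw [← im_G0_zero]
    exact ((le_abs_self _).trans (Complex.abs_im_le_norm _)).trans hB
  have h2 : ∀ k : Tor d M, ‖Gh z k‖ ≤ (2 * √z.im)⁻¹ * ((Gh z k).im + 1) := fun k => by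
    rw [im_Gh, le_inv_mul_iff₀ (by positivity)]
    nlinarith [sq_nonneg (√z.im * ‖Gh z k‖ - 1)]
  refine (av_mono h2).trans ?_
  rw [av_mul, av_add, av_const, div_div, div_eq_inv_mul]
  gcongr

lemma norm_fF_sq_le (hd : 3 ≤ d) (hM : 32 ≤ M) {z : ℂ} (hz : 0 < z.im) (hz1 : z.im ≤ 1)
    (hr : z.re ≤ -2 * d + 1 / 4) (hbig : 128 / z.im ^ 4 ≤ M) (p : Tor d M) :
    ‖fF (fun x => G0 z x * G0 z x) p‖ ≤ 140000 / √z.im := by
  have hM0 : (0 : ℝ) < M := Nat.cast_pos.2 (NeZero.pos M)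
  have ha : 0 < √z.im := Real.sqrt_pos.2 hz
  have ha1 : √z.im ≤ 1 := Real.sqrt_le_one.2 hz1
  have e1 : 128 / z.im ^ 4 / M ≤ 1 := (div_le_one hM0).2 hbig
  have hG : ‖G0 z (0 : Tor d M)‖ ≤ 11669 := by
    have h1 := norm_G0_near hd hM hz le_rfl hr (0 : Tor d M)
    have h2 : err z.im (nrm (0 : Tor d M)) ≤ 128 / z.im ^ 4 := by
      simp only [err, nrm_zero, Nat.cast_zero, add_zero]
      rw [div_le_div_iff₀ hz (by positivity)]
      have : z.im ^ 3 ≤ z.im := pow_le_of_le_one hz.le hz1 (by norm_num)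
      have e : 32 * (2 / z.im) * z.im ^ 4 = 64 * z.im ^ 3 := by field_simp; norm_num
      linarith
    have h3 := div_le_div_of_nonneg_right h2 hM0.le
    linarith
  have hav := av_Gh_le hz hG
  have hav' : av (fun k : Tor d M => ‖Gh z (k - p)‖) = av fun k : Tor d M => ‖Gh z k‖ :=
    av_equiv (Equiv.subRight p) fun k => ‖Gh z k‖
  have hsplit : fF (fun x => G0 z x * G0 z x) p =
      ∑ k, (if In k ∧ In (k - p) then ((vol d M : ℝ) : ℂ)⁻¹ else 0) * Gh z (k - p) * Gh z k +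
      iF (fun k => if In k ∧ In (k - p) then 0 else Gh z k * Gh z (k - p)) 0 := by
    rw [fF_sq, iF, mul_sum, mul_sum, ← sum_add_distrib]
    refine sum_congr rfl fun k _ => ?_
    rw [ch_zero]
    split_ifs <;> ring
  have hout : ‖iF (fun k => if In k ∧ In (k - p) then 0 else Gh z k * Gh z (k - p)) 0‖ ≤
      4 * (av (fun k : Tor d M => ‖Gh z k‖) + av fun k : Tor d M => ‖Gh z (k - p)‖) := by
    rw [← av_add, ← av_mul]
    refine (norm_iF_le _ _).trans (av_mono fun k => ?_)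
    have n1 := norm_nonneg (Gh z k)
    have n2 := norm_nonneg (Gh z (k - p))
    split_ifs with h
    · rw [norm_zero]; positivity
    · rw [norm_mul]
      rcases not_and_or.1 h with h | h
      · nlinarith [norm_Gh_out hr h]
      · nlinarith [norm_Gh_out hr h]
  have h1 : 1 ≤ 1 / √z.im := by rw [le_div_iff₀ ha]; linarith
  rw [hsplit]
  refine (norm_add_le _ _).trans ((add_le_add (norm_inner_le hd hM hz hz1 p) hout).trans ?_)
  rw [hav']
  have e2 : ∀ c : ℝ, c / √z.im = c * (1 / √z.im) := fun c => by ring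
  rw [e2] at hav
  rw [e2 93312, e2 140000]
  linarith

end RR

theorem rr : RRStmt := by
  intro d hd
  refine ⟨140000, by norm_num, fun γ0 hγ0 => ⟨max 32 ⌈128 / γ0 ^ 4⌉₊, fun M _ hM z hr h0 h1 => ?_⟩⟩
  have hz : 0 < z.im := hγ0.trans_le h0
  refine RR.norm_circ_le (fun x => G0 z x * G0 z x) (by positivity) fun p =>
    RR.norm_fF_sq_le hd (le_of_max_le_left hM) hz h1 (by linarith) ?_ p
  refine le_trans ?_ (Nat.ceil_le.1 (le_of_max_le_right hM))
  gcongr

end Crest.Agent.N334.AC.I
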