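import Crest.Agent.N334.AC.I.Cap
import Crest.Agent.N334.AC.I.RR

/-!
# Row 334, S0520, part I (helper24): capacity bound for separated sets
-/

set_option autoImplicit false
set_option linter.unusedSectionVars false

open Finset Complex
open scoped ComplexConjugate

namespace Crest.Agent.N334.AC.I

variable {d M : ℕ} [NeZero M]

/-- convolution powers -/
noncomputable def cv (π : Tor d M → ℝ) : ℕ → Tor d M → ℝ
  | 0 => fun x => if x = 0 then 1 else 0
  | k + 1 => fun x => ∑ y, π (x - y) * cv π k y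

lemma cv_nonneg {π : Tor d M → ℝ} (h : ∀ x, 0 ≤ π x) (k : ℕ) : ∀ x, 0 ≤ cv π k x := by
  induction k with
  | zero => intro x; simp only [cv]; positivity
  | succ k ih => exact fun x => sum_nonneg fun y _ => mul_nonneg (h _) (ih y)

lemma fF_cv {π : Tor d M → ℝ} (he : ∀ x, π (-x) = π x) (k : ℕ) (p : Tor d M) :
    fF (fun x => (cv π k x : ℂ)) p = ((hat π p ^ k : ℝ) : ℂ) := by
  induction k with
  | zero =>
    simp only [fF, cv, pow_zero, ofReal_one]
    rw [sum_eq_single 0 (fun b _ hb => by simp [hb]) (by simp)]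
    simp
  | succ k ih =>
    have := RR.fF_conv (fun x => (π x : ℂ)) (fun x => (cv π k x : ℂ)) p
    rw [ih, fF_even he] at this
    simp only [cv]
    push_cast at this ⊢
    rw [this, pow_succ']

lemma Step.cv_mom {π : Tor d M → ℝ} {γ c : ℝ} (h : Step π γ c) (k : ℕ) :
    ∑ x, cv π k x * Real.exp (2 * (c * γ) * nrm x) ≤ 2 ^ k := by
  have hθ : 0 ≤ 2 * (c * γ) := by have := h.c_pos; have := h.γ_pos; positivity
  induction k with
  | zero =>
    rw [sum_eq_single 0 (fun b _ hb => by simp [cv, hb]) (by simp)]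
    simp [cv]
  | succ k ih =>
    simp only [cv, sum_mul]
    rw [sum_comm, pow_succ]
    refine le_trans (sum_le_sum fun y _ => ?_) (le_trans (le_of_eq (sum_mul _ _ _).symm)
      (mul_le_mul_of_nonneg_right ih zero_le_two))
    rw [← sum_add_right _ y]
    refine le_trans (sum_le_sum fun x _ => ?_) (le_trans (le_of_eq (mul_sum _ _ _).symm)
      (mul_le_mul_of_nonneg_left h.mom (mul_nonneg (cv_nonneg h.nonneg k y) (Real.exp_pos _).le)))
    have e : Real.exp (2 * (c * γ) * nrm (x + y)) ≤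
        Real.exp (2 * (c * γ) * nrm y) * Real.exp (2 * (c * γ) * nrm x) := by
      rw [← Real.exp_add, ← mul_add]
      have : (nrm (x + y) : ℝ) ≤ nrm y + nrm x := by
        rw [add_comm (nrm y : ℝ)]; exact_mod_cast nrm_add_le x y
      gcongr
    have := mul_le_mul_of_nonneg_left e (mul_nonneg (h.nonneg x) (cv_nonneg h.nonneg k y))
    rw [add_sub_cancel_right]
    linarith

lemma quad_eq (l f F : Tor d M → ℝ) (hF : ∀ p, fF (fun x => (f x : ℂ)) p = F p) :
    (av fun p => wt l p * F p) = ∑ x, ∑ y, l x * l y * f (x - y) := by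
  have e := parseval' (fF fun x => ∑ y, (f (x - y) : ℂ) * l y) (fF fun x => (l x : ℂ))
  simp only [iF_fF, RR.fF_conv (fun x => (f x : ℂ)), hF, mul_assoc, Complex.mul_conj,
    Complex.normSq_eq_norm_sq, Complex.conj_ofReal] at e
  have e2 : ((av fun p => wt l p * F p : ℝ) : ℂ) = ((∑ x, ∑ y, l x * l y * f (x - y) : ℝ) : ℂ) := by
    unfold av wt
    push_cast at e ⊢
    simp only [mul_comm _ (F _ : ℂ)]
    rw [← e]
    refine sum_congr rfl fun x _ => ?_
    rw [sum_mul]
    exact sum_congr rfl fun y _ => by ring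
  exact_mod_cast e2

lemma av_eq (f F : Tor d M → ℝ) (hF : ∀ p, fF (fun x => (f x : ℂ)) p = F p) : av F = f 0 := by
  have e := iF_fF (fun x => (f x : ℂ)) 0
  simp only [iF, hF, ch_zero, mul_one] at e
  unfold av
  exact_mod_cast e

lemma Step.quad_le {π : Tor d M → ℝ} {γ c : ℝ} (h : Step π γ c) {R : ℕ} {S : Finset (Tor d M)}
    (hS : Sep R S) {l : Tor d M → ℝ} (hl : ∀ x, x ∉ S → l x = 0) (k : ℕ) :
    (av fun p => wt l p * hat π p ^ k) ≤ (av fun p => hat π p ^ k) * ∑ x, l x ^ 2 +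
      2 ^ k * Real.exp (-(2 * (c * γ) * R)) * (∑ x, |l x|) ^ 2 := by
  have hθ : 0 ≤ 2 * (c * γ) := by have := h.c_pos; have := h.γ_pos; positivity
  rw [quad_eq l _ _ (fF_cv h.even k), av_eq _ _ (fF_cv h.even k), sq (∑ x, |l x|), sum_mul_sum,
    mul_sum, mul_sum, ← sum_add_distrib]
  refine sum_le_sum fun x _ => ?_
  have : cv π k 0 * l x ^ 2 = ∑ y, if y = x then cv π k 0 * l x ^ 2 else 0 := by simp
  rw [this, mul_sum, ← sum_add_distrib]
  refine sum_le_sum fun y _ => ?_
  split_ifs with hy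
  · subst hy
    rw [sub_self]
    have : 0 ≤ 2 ^ k * Real.exp (-(2 * (c * γ) * R)) * (|l y| * |l y|) := by positivity
    linarith
  by_cases hx : x ∈ S
  swap
  · simp [hl x hx]
  by_cases hy' : y ∈ S
  swap
  · simp [hl y hy']
  have e1 : (R : ℝ) ≤ nrm (x - y) := by exact_mod_cast hS x hx y hy' (Ne.symm hy)
  have e2 : cv π k (x - y) * Real.exp (2 * (c * γ) * nrm (x - y)) ≤ 2 ^ k :=
    (single_le_sum (f := fun x => cv π k x * Real.exp (2 * (c * γ) * nrm x))
      (fun x _ => mul_nonneg (cv_nonneg h.nonneg k x) (Real.exp_pos _).le) (mem_univ _)).trans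
      (h.cv_mom k)
  have e0 := cv_nonneg h.nonneg k (x - y)
  have e3 : cv π k (x - y) ≤ 2 ^ k * Real.exp (-(2 * (c * γ) * R)) := by
    rw [Real.exp_neg, ← div_eq_mul_inv, le_div_iff₀ (Real.exp_pos _)]
    refine le_trans ?_ e2
    gcongr
  rw [zero_add, mul_comm (_ * _) (|l x| * |l y|), ← abs_mul]
  exact mul_le_mul (le_abs_self _) e3 e0 (abs_nonneg _)

lemma geom_le {x y : ℝ} (hy : 0 < y) (h : |x| ≤ 1 - y) (m : ℕ) :
    ∑ k ∈ range (m + 2), x ^ k ≤ 1 + x + x ^ 2 / y := by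
  have h1 : ∀ m : ℕ, ∑ k ∈ range m, |x| ^ k ≤ 1 / y := by
    intro m
    induction m with
    | zero => simp [hy.le]
    | succ m ih =>
      rw [geom_sum_succ]
      have : |x| * ∑ k ∈ range m, |x| ^ k ≤ (1 - y) * (1 / y) :=
        mul_le_mul h ih (sum_nonneg fun k _ => by positivity) (by linarith [abs_nonneg x])
      have e : (1 - y) * (1 / y) + 1 = 1 / y := by field_simp; ring
      linarith
  have h2 : ∑ k ∈ range m, x ^ k ≤ 1 / y :=
    le_trans (sum_le_sum fun k _ => by rw [← abs_pow]; exact le_abs_self _) (h1 m)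
  rw [geom_sum_succ, geom_sum_succ]
  have := mul_le_mul_of_nonneg_left h2 (sq_nonneg x)
  rw [mul_one_div] at this
  linarith

lemma le_one_add_pow_four (a : ℝ) : a ≤ 1 + a ^ 4 := by
  nlinarith [sq_nonneg (a ^ 2 - 1 / 2), sq_nonneg (a - 1 / 2)]

lemma one_sub_pow_le {y : ℝ} (h0 : 0 ≤ y) (h1 : y ≤ 1) (n : ℕ) : (1 - y) ^ n * (1 + n * y) ≤ 1 := by
  have e1 := one_add_mul_le_pow (a := y) (by linarith) n
  calc _ ≤ (1 - y) ^ n * (1 + y) ^ n := by gcongr
    _ = (1 - y ^ 2) ^ n := by rw [← mul_pow]; ring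
    _ ≤ 1 := pow_le_one₀ (by nlinarith) (by nlinarith)

theorem Step.cap2 {π : Tor d M → ℝ} {γ c : ℝ} (h : Step π γ c) (hd : 3 ≤ d) (hM : 8 ≤ M)
    {R : ℕ} (hR : R ≤ 2 * M) {S : Finset (Tor d M)} (hS : Sep R S) {l : Tor d M → ℝ}
    (hl : ∀ x, x ∉ S → l x = 0) {ψ : Tor d M → ℝ} (hψ : Van ψ) {t a : ℝ} (ht : 0 < t) (ha : 0 < a)
    (haR : a ^ 4 ≤ c ^ 2 * γ * R) :
    (∑ x, l x * ψ x) ^ 2 ≤ (1 + t) * ((1 + π 0 + (2 * M + 3) / vol d M +
      (∑ x, π x ^ 2 + 14 ^ d * γ ^ 2) / c) * ∑ x, l x ^ 2 + ((8 + 14 ^ d / c) / a +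
      4 * (1 + (γ * M) ^ 2) / (c * t * vol d M)) * (∑ x, |l x|) ^ 2) * Dir π ψ := by
  have hc := h.c_pos
  have hc1 := h.c_le
  have hγ := h.γ_pos
  have hγ1 := h.γ_le
  have hv := vol_pos (d := d) (M := M)
  refine (h.dual (by omega) hM l hψ ht).trans
    (mul_le_mul_of_nonneg_right (mul_le_mul_of_nonneg_left ?_ (by positivity)) (h.Dir_nonneg ψ))
  set L := (∑ x, |l x|) ^ 2
  have hL : 0 ≤ L := sq_nonneg _
  set s := ∑ x, l x ^ 2
  have hs : 0 ≤ s := sum_nonneg fun _ _ => sq_nonneg _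
  set T := c * γ * R with hT
  have hT0 : 0 ≤ T := by positivity
  set n := ⌈T⌉₊ + 2 with hn
  have hn1 : T ≤ n := (Nat.le_ceil T).trans (by rw [hn]; push_cast; linarith)
  have hn2 : (n : ℝ) ≤ T + 3 := by rw [hn]; push_cast; linarith [Nat.ceil_lt_add_one hT0]
  have h00 : hat π 0 = 1 := by simp [hat, h.sum_one]
  -- pointwise splitting
  have h1 : (av fun p => if p = 0 then 0 else wt l p / (1 - hat π p)) ≤
      av fun p => ∑ k ∈ range n, wt l p * hat π p ^ k + L / (c * a) * uu p ^ 5 := by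
    refine av_mono fun p => ?_
    have w0 := wt_nonneg l p
    have w1 := wt_le l p
    have u0 := uu_nonneg p
    split_ifs with hp
    · subst hp; rw [h00]; positivity
    have mp := mm_pos hγ hp
    have m0 := mul_pos hc mp
    have m1 : c * mm γ p ≤ 1 := by nlinarith [mm_le_one γ p]
    have l0 := m0.trans_le (h.le_lam p)
    have u1 := one_le_uu hp
    have e1 : wt l p / (1 - hat π p) =
        ∑ k ∈ range n, wt l p * hat π p ^ k + wt l p * (hat π p ^ n / (1 - hat π p)) := by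
      rw [← mul_sum, ← mul_add, div_eq_mul_one_div]
      congr 1
      rw [div_eq_iff l0.ne', add_mul, div_mul_cancel₀ _ l0.ne', mul_comm, mul_neg_geom_sum]; ring
    have e2 := (inv_mm_le hγ hp).2 hγ1
    have e3 : a / uu p ≤ 1 + n * (c * mm γ p) := by
      refine (le_one_add_pow_four _).trans ?_
      have : (uu p ^ 4)⁻¹ ≤ mm γ p := inv_le_of_inv_le₀ mp e2
      have e : a ^ 4 ≤ n * c := haR.trans (by nlinarith)
      rw [div_pow, div_eq_mul_inv, ← mul_assoc]
      gcongr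
    have e4 : |hat π p| ^ n ≤ uu p / a := by
      have e5 := one_sub_pow_le m0.le m1 n
      have e6 : |hat π p| ^ n ≤ (1 - c * mm γ p) ^ n := pow_le_pow_left₀ (abs_nonneg _) (h.symb p) n
      have e7 : |hat π p| ^ n * (a / uu p) ≤ 1 :=
        le_trans (mul_le_mul e6 e3 (by positivity) (pow_nonneg (by linarith) n)) e5
      rw [le_div_iff₀ ha]
      rwa [← mul_div_assoc, div_le_one (by linarith)] at e7
    have e5 : hat π p ^ n / (1 - hat π p) ≤ uu p / a * (c⁻¹ * uu p ^ 4) := by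
      rw [div_eq_mul_inv (hat π p ^ n)]
      refine mul_le_mul (le_trans (by rw [← abs_pow]; exact le_abs_self _) e4) ?_ (by positivity)
        (by positivity)
      refine (inv_anti₀ m0 (h.le_lam p)).trans ?_
      rw [mul_inv]; gcongr
    rw [e1]
    refine add_le_add_right ?_ _
    calc _ ≤ wt l p * (uu p / a * (c⁻¹ * uu p ^ 4)) := by gcongr
      _ ≤ L * (uu p / a * (c⁻¹ * uu p ^ 4)) := by gcongr
      _ = _ := by field_simp
  have hsum : ∀ F : ℕ → Tor d M → ℝ, (av fun p => ∑ k ∈ range n, F k p) =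
      ∑ k ∈ range n, av (F k) := by
    intro F; unfold av; rw [sum_comm, mul_sum]
  rw [av_add, av_mul, hsum] at h1
  have h2 : ∑ k ∈ range n, (av fun p => wt l p * hat π p ^ k) ≤
      (av fun p => ∑ k ∈ range n, hat π p ^ k) * s +
        (∑ k ∈ range n, (2 : ℝ) ^ k) * Real.exp (-(2 * (c * γ) * R)) * L := by
    rw [hsum, sum_mul, sum_mul, sum_mul, ← sum_add_distrib]
    exact sum_le_sum fun k _ => h.quad_le hS hl k
  have h3 : (av fun p => ∑ k ∈ range n, hat π p ^ k) ≤
      1 + π 0 + (2 * M + 3) / vol d M + (∑ x, π x ^ 2 + 14 ^ d * γ ^ 2) / c := by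
    rw [av_split]
    have e1 : (av fun p => if p = 0 then 0 else ∑ k ∈ range n, hat π p ^ k) ≤
        av fun p => (1 + hat π p) + if p = 0 then 0 else hat π p ^ 2 / (c * mm γ p) := by
      refine av_mono fun p => ?_
      split_ifs with hp
      · subst hp; rw [h00]; norm_num
      · exact geom_le (mul_pos hc (mm_pos hγ hp)) (h.symb p) _
    rw [av_add, av_add, av_const, av_eq _ _ (fF_even h.even)] at e1
    have e2 : (vol d M)⁻¹ * ∑ k ∈ range n, hat π 0 ^ k ≤ (2 * M + 3) / vol d M := by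
      simp only [h00, one_pow, sum_const, card_range, nsmul_eq_mul, mul_one]
      rw [div_eq_inv_mul]
      have e3 : (R : ℝ) ≤ 2 * M := by exact_mod_cast hR
      have e4 : T ≤ R := mul_le_of_le_one_left (by positivity) (by nlinarith)
      gcongr; linarith
    linarith [h.av_rem hd]
  have h4 : (∑ k ∈ range n, (2 : ℝ) ^ k) * Real.exp (-(2 * (c * γ) * R)) ≤ 8 / a := by
    have e1 : ∑ k ∈ range n, (2 : ℝ) ^ k ≤ 8 * Real.exp T := by
      rw [geom_sum_eq (by norm_num)]
      have e2 : (2 : ℝ) ^ n ≤ 2 ^ (T + 3) := by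
        rw [← Real.rpow_natCast]; exact Real.rpow_le_rpow_of_exponent_le (by norm_num) hn2
      have e3 : (2 : ℝ) ^ T ≤ Real.exp T := by
        rw [← Real.exp_one_rpow]
        exact Real.rpow_le_rpow (by norm_num) (by linarith [Real.add_one_le_exp 1]) hT0
      rw [Real.rpow_add (by norm_num)] at e2
      norm_num at e2 ⊢
      linarith
    have e2 : a ≤ Real.exp T := by
      have : c ^ 2 * γ * R ≤ T := by rw [hT]; gcongr; nlinarith
      linarith [le_one_add_pow_four a, Real.add_one_le_exp T]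
    calc _ ≤ 8 * Real.exp T * Real.exp (-(2 * (c * γ) * R)) := by gcongr
      _ = 8 / Real.exp T := by
        rw [mul_assoc, ← Real.exp_add, div_eq_mul_inv, ← Real.exp_neg]; congr 2; rw [hT]; ring
      _ ≤ _ := by gcongr
  have h5 : L / (c * a) * (av fun p : Tor d M => uu p ^ 5) ≤ 14 ^ d / c / a * L := by
    calc _ ≤ L / (c * a) * 14 ^ d := by gcongr; exact av_uu hd
      _ = _ := by field_simp
  have h6 := mul_le_mul_of_nonneg_right h3 hs
  have h7 := mul_le_mul_of_nonneg_right h4 hL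
  rw [add_div (8 : ℝ), add_mul _ _ L, add_mul _ _ L]
  linarith

end Crest.Agent.N334.AC.I
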