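import Crest.Agent.N334.AC.I.Step

/-!
# Row 334, S0520, part I: sliding cut-offs (`CutStmt` from `PoinStmt`)
-/

set_option autoImplicit false
set_option linter.unusedSectionVars false

open Finset

namespace Crest.Agent.N334.AC.I

namespace Ct

variable {d M : ℕ} [NeZero M]

/-! ### counting -/

lemma mem_tball {p x : Tor d M} {r : ℕ} : x ∈ tball p r ↔ tdist x p ≤ r := by simp [tball]

lemma tdist_comm (x y : Tor d M) : tdist x y = tdist y x := nrm_sub_comm x y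

lemma tdist_tri (x y z : Tor d M) : tdist x z ≤ tdist x y + tdist y z := by
  have := nrm_add_le (x - y) (y - z)
  rwa [sub_add_sub_cancel] at this

lemma card_le_one (p : Tor d M) (r : ℕ) : (tball p r).card ≤ (2 * r + 1) ^ d := by
  have h : (Fintype.piFinset fun _ : Fin d => Icc (-(r : ℤ)) r).card = (2 * r + 1) ^ d := by
    rw [Fintype.card_piFinset, prod_const, card_univ, Fintype.card_fin, Int.card_Icc]
    congr 1
    omega
  rw [← h]
  refine card_le_card_of_injOn (fun x j => (x j - p j).valMinAbs) (fun x hx => ?_)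
    fun x _ y _ e => funext fun j => ?_
  · refine mem_coe.2 (Fintype.mem_piFinset.2 fun j => mem_Icc.2 ?_)
    have : (x j - p j).valMinAbs.natAbs ≤ r := nrm_le.1 (mem_tball.1 hx) j
    change -(r : ℤ) ≤ (x j - p j).valMinAbs ∧ (x j - p j).valMinAbs ≤ r
    constructor <;> omega
  · exact sub_left_injective (ZMod.injective_valMinAbs (congrFun e j))

lemma card_le_two (p : Tor d M) (r : ℕ) : (tball p r).card ≤ M ^ d := by
  simpa [Fintype.card_pi, ZMod.card] using card_le_univ (tball p r)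

lemma card_ge {A : Finset (Tor d M)} (x₀ : Tor d M) {s : ℤ} (hs : s = 1 ∨ s = -1) {t : ℕ}
    (ht : t ≤ M) (h : ∀ k : Fin d → ℕ, (∀ j, k j < t) → (x₀ + fun j => ((s * k j : ℤ) : ZMod M)) ∈ A) :
    t ^ d ≤ A.card := by
  have e : (Fintype.piFinset fun _ : Fin d => range t).card = t ^ d := by simp
  rw [← e]
  refine card_le_card_of_injOn (fun k => x₀ + fun j => ((s * k j : ℤ) : ZMod M))
    (fun k hk => h k fun j => mem_range.1 (Fintype.mem_piFinset.1 hk j))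
    fun k hk k' hk' e => funext fun j => ?_
  have h1 := mem_range.1 (Fintype.mem_piFinset.1 hk j)
  have h2 := mem_range.1 (Fintype.mem_piFinset.1 hk' j)
  have h3 : ((k j : ℕ) : ZMod M) = (k' j : ℕ) := by
    have := congrFun (add_left_cancel e) j
    rcases hs with rfl | rfl <;> simpa using this
  have := congrArg ZMod.val h3
  rwa [ZMod.val_natCast_of_lt (by omega), ZMod.val_natCast_of_lt (by omega)] at this

lemma tdist_step (x₀ : Tor d M) {s : ℤ} (hs : s = 1 ∨ s = -1) {t : ℕ} {k : Fin d → ℕ}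
    (h : ∀ j, k j < t) : tdist (x₀ + fun j => ((s * k j : ℤ) : ZMod M)) x₀ ≤ t := by
  rw [tdist_eq, add_sub_cancel_left, nrm_le]
  intro j
  have := natAbs_valMinAbs_int (M := M) (s * k j)
  have := h j
  rcases hs with rfl | rfl <;> omega

lemma exists_sign {b : ZMod M} (hb : M < 4 * b.valMinAbs.natAbs) : ∃ s : ℤ, (s = 1 ∨ s = -1) ∧
    ∀ k : ℕ, 8 * k ≤ M → M < 4 * (b + ((s * k : ℤ) : ZMod M)).valMinAbs.natAbs := by
  have h0 := ZMod.valMinAbs_mem_Ioc b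
  have key : ∀ n : ℤ, (M : ℤ) ∣ b.valMinAbs + n - (b + (n : ZMod M)).valMinAbs := fun n =>
    (ZMod.intCast_zmod_eq_zero_iff_dvd _ M).1 (by simp)
  simp only [Set.mem_Ioc] at h0
  rcases le_total 0 b.valMinAbs with h | h
  · refine ⟨1, Or.inl rfl, fun k hk => not_le.1 fun hc => ?_⟩
    have := Int.le_of_dvd (by omega) (key (1 * k))
    omega
  · refine ⟨-1, Or.inr rfl, fun k hk => not_le.1 fun hc => ?_⟩
    have := Int.le_of_dvd (by omega) (dvd_neg.2 (key (-1 * k)))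
    omega

open Classical in
/-- the centring set -/
noncomputable def cs (L : ℕ) (p : Tor d M) : Finset (Tor d M) :=
  if ∃ x ∈ absb d M, tdist x p ≤ 3 * L then absb d M ∩ tball p (4 * L) else tball p (4 * L)

lemma cs_sub (L : ℕ) (p : Tor d M) : cs L p ⊆ tball p (4 * L) := by
  unfold cs
  split_ifs
  exacts [inter_subset_right, Subset.rfl]

lemma ball_ge (p : Tor d M) {t r : ℕ} (ht : t ≤ M) (hr : t ≤ r) : t ^ d ≤ (tball p r).card :=
  card_ge p (Or.inl rfl) ht fun _ hk => mem_tball.2 ((tdist_step p (Or.inl rfl) hk).trans hr)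

lemma cs_ge (L : ℕ) (p : Tor d M) : (min L (M / 8)) ^ d ≤ (cs L p).card := by
  unfold cs
  split_ifs with h
  · obtain ⟨x, hx, hp⟩ := h
    obtain ⟨j, hj, hb⟩ := (mem_filter.1 hx).2
    obtain ⟨s, hs, h⟩ := exists_sign hb
    refine card_ge x hs (by omega) fun k hk => mem_inter.2
      ⟨mem_filter.2 ⟨mem_univ _, j, hj, h (k j) (by have := hk j; omega)⟩, mem_tball.2 ?_⟩
    have := tdist_step x hs hk
    have := tdist_tri (x + fun j => ((s * k j : ℤ) : ZMod M)) x p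
    omega
  · exact ball_ge p (by omega) (by omega)

lemma ball_le (hM : 8 ≤ M) {L r : ℕ} (hL : 1 ≤ L) (hr : r ≤ 8 * L) (p : Tor d M) :
    (tball p r).card ≤ 17 ^ d * (min L (M / 8)) ^ d := by
  rw [← mul_pow]
  rcases le_total L (M / 8) with h | h
  · exact (card_le_one p r).trans (Nat.pow_le_pow_left (by omega) d)
  · exact (card_le_two p r).trans (Nat.pow_le_pow_left (by omega) d)

lemma sum_ball {r : ℕ} {U : ℝ} (hU : ∀ p : Tor d M, ((tball p r).card : ℝ) ≤ U) {F : Tor d M → ℝ}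
    (hF : ∀ x, 0 ≤ F x) : ∑ p, ∑ x ∈ tball p r, F x ≤ U * ∑ x, F x := by
  rw [sum_comm' (t' := univ) (s' := fun x => tball x r) fun p x => by
    simp only [mem_univ, true_and, and_true, mem_tball, tdist_comm], mul_sum]
  refine sum_le_sum fun x _ => ?_
  rw [sum_const, nsmul_eq_mul]
  exact mul_le_mul_of_nonneg_right (hU x) (hF x)

lemma sum_ball_shift (r : ℕ) (G : Tor d M → Tor d M → ℝ) :
    ∑ x, ∑ a ∈ tball x r, G a x = ∑ u ∈ tball (0 : Tor d M) r, ∑ x, G (x + u) x := by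
  rw [sum_comm]
  refine sum_congr rfl fun x _ => (sum_bijective (fun u => x + u) (Equiv.addLeft x).bijective
    (fun u => ?_) fun _ _ => rfl).symm
  simp only [mem_tball, tdist_eq, add_sub_cancel_left, sub_zero]

/-! ### the centring functional -/

/-- average over the centring set -/
noncomputable def cp (L : ℕ) (p : Tor d M) : (Tor d M → ℝ) →ₗ[ℝ] ℝ :=
  ((cs L p).card : ℝ)⁻¹ • ∑ a ∈ cs L p, LinearMap.proj a

lemma cp_apply (L : ℕ) (p : Tor d M) (ψ : Tor d M → ℝ) :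
    cp L p ψ = ((cs L p).card : ℝ)⁻¹ * ∑ a ∈ cs L p, ψ a := by
  simp [cp]

lemma jensen {L : ℕ} {T : ℝ} (hT : 0 < T) {p : Tor d M} (h : T ≤ (cs L p).card) (ψ : Tor d M → ℝ)
    (r : ℝ) : (r - cp L p ψ) ^ 2 ≤ T⁻¹ * ∑ a ∈ tball p (4 * L), (ψ a - r) ^ 2 := by
  have h0 : (0 : ℝ) < (cs L p).card := hT.trans_le h
  have h1 : r - cp L p ψ = -(((cs L p).card : ℝ)⁻¹ * ∑ a ∈ cs L p, (ψ a - r)) := by
    rw [cp_apply, sum_sub_distrib, sum_const, nsmul_eq_mul]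
    field_simp
    ring
  have h2 := sq_sum_le_card_mul_sum_sq (s := cs L p) (f := fun a => ψ a - r)
  calc (r - cp L p ψ) ^ 2 = (((cs L p).card : ℝ)⁻¹) ^ 2 * (∑ a ∈ cs L p, (ψ a - r)) ^ 2 := by
        rw [h1]; ring
    _ ≤ (((cs L p).card : ℝ)⁻¹) ^ 2 * ((cs L p).card * ∑ a ∈ cs L p, (ψ a - r) ^ 2) := by gcongr
    _ = ((cs L p).card : ℝ)⁻¹ * ∑ a ∈ cs L p, (ψ a - r) ^ 2 := by field_simp
    _ ≤ _ := mul_le_mul (inv_anti₀ hT h) (sum_le_sum_of_subset_of_nonneg (cs_sub L p)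
        fun _ _ _ => sq_nonneg _) (sum_nonneg fun _ _ => sq_nonneg _) (inv_nonneg.2 hT.le)

/-- the key estimate -/
lemma key {L r : ℕ} (hr : r ≤ 4 * L) {T D P : ℝ} (hT : 0 < T) (hD : 0 ≤ D) (hP : 0 ≤ P)
    (h1 : ∀ p : Tor d M, T ≤ (cs L p).card)
    (h2 : ∀ r ≤ 8 * L, ∀ p : Tor d M, ((tball p r).card : ℝ) ≤ D * T) {ψ : Tor d M → ℝ}
    (h3 : ∀ u : Tor d M, nrm u ≤ 8 * L → ∑ x, (ψ (x + u) - ψ x) ^ 2 ≤ P) :
    ∑ p, ∑ x ∈ tball p r, (ψ x - cp L p ψ) ^ 2 ≤ D ^ 2 * T * P := by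
  calc ∑ p, ∑ x ∈ tball p r, (ψ x - cp L p ψ) ^ 2
      ≤ ∑ p, ∑ x ∈ tball p r, T⁻¹ * ∑ a ∈ tball x (8 * L), (ψ a - ψ x) ^ 2 := by
        refine sum_le_sum fun p _ => sum_le_sum fun x hx => (jensen hT (h1 p) ψ _).trans ?_
        refine mul_le_mul_of_nonneg_left (sum_le_sum_of_subset_of_nonneg (fun a ha => ?_)
          fun _ _ _ => sq_nonneg _) (inv_nonneg.2 hT.le)
        rw [mem_tball] at *
        have := tdist_tri a p x
        rw [tdist_comm p x] at this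
        omega
    _ ≤ D * T * ∑ x, T⁻¹ * ∑ a ∈ tball x (8 * L), (ψ a - ψ x) ^ 2 :=
        sum_ball (F := fun x => T⁻¹ * ∑ a ∈ tball x (8 * L), (ψ a - ψ x) ^ 2) (h2 r (by omega))
          fun x => mul_nonneg (inv_nonneg.2 hT.le) (sum_nonneg fun _ _ => sq_nonneg _)
    _ = D * ∑ u ∈ tball (0 : Tor d M) (8 * L), ∑ x, (ψ (x + u) - ψ x) ^ 2 := by
        rw [← mul_sum, sum_ball_shift _ fun a x => (ψ a - ψ x) ^ 2]
        field_simp
    _ ≤ D * (D * T * P) := by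
        refine mul_le_mul_of_nonneg_left ((sum_le_card_nsmul _ _ P fun u hu => h3 u ?_).trans ?_) hD
        · simpa [tdist_eq] using mem_tball.1 hu
        · rw [nsmul_eq_mul]
          exact mul_le_mul_of_nonneg_right (h2 _ le_rfl 0) hP
    _ = _ := by ring

/-! ### the cut-off -/

/-- the cut-off -/
noncomputable def chi (L : ℕ) (p x : Tor d M) : ℝ := max 0 (min 1 ((3 * L - tdist x p) / L))

lemma clamp_lip (s t : ℝ) : |max 0 (min 1 s) - max 0 (min 1 t)| ≤ |s - t| := by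
  have h1 := abs_max_sub_max_le_max 0 (min 1 s) 0 (min 1 t)
  have h2 := abs_min_sub_min_le_max 1 s 1 t
  simp only [sub_self, abs_zero, abs_nonneg, max_eq_right] at h1 h2
  exact h1.trans h2

lemma chi_lip {L : ℕ} (hL : 1 ≤ L) (p a b : Tor d M) :
    (chi L p a - chi L p b) ^ 2 ≤ ((tdist a b : ℝ) / L) ^ 2 := by
  have h0 : (0 : ℝ) < L := by exact_mod_cast hL
  rw [← sq_abs]
  refine pow_le_pow_left₀ (abs_nonneg _) ((clamp_lip _ _).trans ?_) 2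
  rw [← sub_div, abs_div, abs_of_pos h0]
  refine div_le_div_of_nonneg_right ?_ h0.le
  have h1 : (tdist a p : ℝ) ≤ tdist a b + tdist b p := by exact_mod_cast tdist_tri a b p
  have h2 : (tdist b p : ℝ) ≤ tdist a b + tdist a p := by
    rw [tdist_comm a b]; exact_mod_cast tdist_tri b a p
  rw [abs_le]
  constructor <;> linarith

lemma chi_nonneg (L : ℕ) (p x : Tor d M) : 0 ≤ chi L p x := le_max_left _ _

lemma chi_le_one (L : ℕ) (p x : Tor d M) : chi L p x ≤ 1 := max_le zero_le_one (min_le_left _ _)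

lemma chi_zero {L : ℕ} {p x : Tor d M} (h : 3 * L < tdist x p) : chi L p x = 0 := by
  have : (3 * L : ℝ) ≤ tdist x p := by exact_mod_cast h.le
  exact max_eq_left (min_le_of_right_le (div_nonpos_of_nonpos_of_nonneg (by linarith)
    (Nat.cast_nonneg _)))

lemma chi_one {L : ℕ} (hL : 1 ≤ L) {p x : Tor d M} (h : tdist x p ≤ 2 * L) : chi L p x = 1 := by
  have h0 : (0 : ℝ) < L := by exact_mod_cast hL
  have : (tdist x p : ℝ) ≤ 2 * L := by exact_mod_cast h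
  rw [chi, min_eq_left ((one_le_div h0).2 (by linarith)), max_eq_right zero_le_one]

lemma ims_pt {s t x y δ : ℝ} (h0 : 0 ≤ t) (h1 : t ≤ 1) (h : (s - t) ^ 2 ≤ δ) :
    (s * x - t * y) ^ 2 ≤ 2 * (x - y) ^ 2 + 2 * x ^ 2 * δ := by
  have h2 : (t * (x - y)) ^ 2 ≤ (x - y) ^ 2 := by
    rw [mul_pow]
    exact mul_le_of_le_one_left (sq_nonneg _) (pow_le_one₀ h0 h1)
  have h3 : x ^ 2 * (s - t) ^ 2 ≤ x ^ 2 * δ := mul_le_mul_of_nonneg_left h (sq_nonneg _)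
  nlinarith [sq_nonneg (t * (x - y) - (s - t) * x)]

lemma mom2 {π : Tor d M → ℝ} {γ c : ℝ} (h : Step π γ c) (a : Tor d M) :
    ∑ b, π (a - b) * (tdist a b : ℝ) ^ 2 ≤ ((c * γ) ^ 2)⁻¹ := by
  have hs : 0 < c * γ := mul_pos h.c_pos h.γ_pos
  rw [show ∑ b, π (a - b) * (tdist a b : ℝ) ^ 2 = ∑ u, π u * (nrm u : ℝ) ^ 2 from
    Equiv.sum_comp (Equiv.subLeft a) fun u => π u * (nrm u : ℝ) ^ 2]
  have h1 : ∑ u, π u * (nrm u : ℝ) ^ 2 ≤
      ∑ u, (2 * (c * γ) ^ 2)⁻¹ * (π u * Real.exp (2 * (c * γ) * nrm u)) := by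
    refine sum_le_sum fun u _ => ?_
    rw [mul_left_comm]
    refine mul_le_mul_of_nonneg_left ?_ (h.nonneg u)
    rw [le_inv_mul_iff₀ (by positivity)]
    have := Real.pow_div_factorial_le_exp (2 * (c * γ) * nrm u) (by positivity) 2
    simp only [Nat.factorial_two, Nat.cast_ofNat] at this
    nlinarith
  rw [← mul_sum] at h1
  refine h1.trans ((mul_le_mul_of_nonneg_left h.mom (by positivity)).trans_eq ?_)
  field_simp

lemma Dir_cut {π : Tor d M → ℝ} {γ c : ℝ} (h : Step π γ c) {L : ℕ} (hL : 1 ≤ L) (p : Tor d M)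
    (ψ : Tor d M → ℝ) (r : ℝ) : Dir π (fun x => chi L p x * (ψ x - r)) ≤
      ∑ a ∈ tball p (3 * L), (2 * ∑ b, π (a - b) * (ψ a - ψ b) ^ 2 +
        2 * ((c * γ * L) ^ 2)⁻¹ * (ψ a - r) ^ 2) := by
  classical
  let g : Tor d M → Tor d M → ℝ := fun a b => if a ∈ tball p (3 * L) then
    2 * (ψ a - ψ b) ^ 2 + 2 * (ψ a - r) ^ 2 * ((tdist a b : ℝ) / L) ^ 2 else 0
  have g0 : ∀ a b, 0 ≤ g a b := fun a b => by
    simp only [g]
    split_ifs
    · positivity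
    · rfl
  have g1 : ∀ a b, a ∈ tball p (3 * L) →
      (chi L p a * (ψ a - r) - chi L p b * (ψ b - r)) ^ 2 ≤ g a b := fun a b ha => by
    simp only [g, if_pos ha]
    simpa only [sub_sub_sub_cancel_right] using ims_pt (x := ψ a - r) (y := ψ b - r)
      (chi_nonneg L p b) (chi_le_one L p b) (chi_lip hL p a b)
  have g2 : ∀ a b, (chi L p a * (ψ a - r) - chi L p b * (ψ b - r)) ^ 2 ≤ g a b + g b a := by
    intro a b
    by_cases ha : a ∈ tball p (3 * L)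
    · linarith [g1 a b ha, g0 b a]
    by_cases hb : b ∈ tball p (3 * L)
    · rw [← neg_sq, neg_sub]
      linarith [g1 b a hb, g0 a b]
    rw [chi_zero (not_le.1 (mt mem_tball.2 ha)), chi_zero (not_le.1 (mt mem_tball.2 hb))]
    simpa using add_nonneg (g0 a b) (g0 b a)
  have h1 : ∑ a, ∑ b, π (a - b) * g b a = ∑ a, ∑ b, π (a - b) * g a b := by
    rw [sum_comm]
    exact sum_congr rfl fun a _ => sum_congr rfl fun b _ => by rw [← h.even, neg_sub]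
  have h2 : Dir π (fun x => chi L p x * (ψ x - r)) ≤ ∑ a, ∑ b, π (a - b) * g a b := by
    have := sum_le_sum fun a (_ : a ∈ univ) => sum_le_sum fun b (_ : b ∈ univ) =>
      mul_le_mul_of_nonneg_left (g2 a b) (h.nonneg (a - b))
    simp only [mul_add, sum_add_distrib, h1] at this
    unfold Dir
    linarith
  refine h2.trans ?_
  rw [← sum_subset (subset_univ (tball p (3 * L))) fun a _ ha => by simp [g, ha]]
  refine sum_le_sum fun a ha => ?_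
  have h3 : ∑ b, π (a - b) * g a b = 2 * ∑ b, π (a - b) * (ψ a - ψ b) ^ 2 +
      2 * (ψ a - r) ^ 2 * ((L : ℝ) ^ 2)⁻¹ * ∑ b, π (a - b) * (tdist a b : ℝ) ^ 2 := by
    simp only [g, if_pos ha, mul_sum, ← sum_add_distrib]
    exact sum_congr rfl fun b _ => by ring
  rw [h3]
  refine add_le_add_right ((mul_le_mul_of_nonneg_left (mom2 h a) (by positivity)).trans_eq ?_) _
  ring

lemma ims_part {π : Tor d M → ℝ} {γ c K σ T D C : ℝ} (h : Step π γ c) {L : ℕ} (hLn : 1 ≤ L)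
    (hK : 1 ≤ K) (hγ : σ ^ 2 / K ≤ γ) (hL : 1 ≤ σ ^ 2 * L) (hT0 : 0 < T) (hC : 1 ≤ C)
    (h2 : ∀ p : Tor d M, ((tball p (3 * L)).card : ℝ) ≤ D * T) (ψ : Tor d M → ℝ)
    (hk : ∑ p, ∑ x ∈ tball p (3 * L), (ψ x - cp L p ψ) ^ 2 ≤
      D ^ 2 * T * (C * (1 + (γ * (8 * L)) ^ 2) * Dir π ψ)) :
    ∑ p, Dir π (fun x => chi L p x * (ψ x - cp L p ψ)) ≤
      (4 * D + 2 * D ^ 2 * C * (K ^ 2 + 64) / c ^ 2) * (T * Dir π ψ) := by
  have hE := h.Dir_nonneg ψ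
  have hc := h.c_pos
  have hγ0 := h.γ_pos
  have hL0 : (0 : ℝ) < L := by exact_mod_cast hLn
  have e1 := sum_le_sum fun p (_ : p ∈ univ) => Dir_cut h hLn p ψ (cp L p ψ)
  simp only [sum_add_distrib, ← mul_sum] at e1
  have e2 := sum_ball h2 (F := fun a => ∑ b, π (a - b) * (ψ a - ψ b) ^ 2)
    fun a => sum_nonneg fun b _ => mul_nonneg (h.nonneg _) (sq_nonneg _)
  have e3 : ∑ a, ∑ b, π (a - b) * (ψ a - ψ b) ^ 2 = 2 * Dir π ψ := by unfold Dir; ring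
  have e4 : ((c * γ * L) ^ 2)⁻¹ * (1 + (γ * (8 * L)) ^ 2) ≤ (K ^ 2 + 64) / c ^ 2 := by
    have h3 : 1 ≤ K * (γ * L) := by
      have := (div_le_iff₀ (by positivity)).1 hγ
      nlinarith
    rw [inv_mul_le_iff₀ (by positivity)]
    have h4 : (c * γ * L) ^ 2 * ((K ^ 2 + 64) / c ^ 2) =
        (K * (γ * L)) ^ 2 + (γ * (8 * L)) ^ 2 := by field_simp; ring
    rw [h4]
    linarith [one_le_pow₀ (n := 2) h3]
  rw [e3] at e2
  generalize ∑ p, ∑ x ∈ tball p (3 * L), (ψ x - cp L p ψ) ^ 2 = A at *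
  have e5 : 2 * ((c * γ * L) ^ 2)⁻¹ * A ≤ 2 * D ^ 2 * C * (K ^ 2 + 64) / c ^ 2 * (T * Dir π ψ) :=
    calc _ ≤ 2 * ((c * γ * L) ^ 2)⁻¹ * (D ^ 2 * T * (C * (1 + (γ * (8 * L)) ^ 2) * Dir π ψ)) :=
          mul_le_mul_of_nonneg_left hk (by positivity)
      _ = 2 * D ^ 2 * C * (((c * γ * L) ^ 2)⁻¹ * (1 + (γ * (8 * L)) ^ 2)) * (T * Dir π ψ) := by
          ring
      _ ≤ 2 * D ^ 2 * C * ((K ^ 2 + 64) / c ^ 2) * (T * Dir π ψ) :=
          mul_le_mul_of_nonneg_right (mul_le_mul_of_nonneg_left e4 (by positivity)) (by positivity)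
      _ = _ := by ring
  linarith

lemma err_pt {θ B : ℝ} (P2 : ∑ u : Tor d M, Real.exp (-θ * nrm u) ≤ B) (ψ : Tor d M → ℝ) (r : ℝ)
    (y : Tor d M) : ∑ b, Real.exp (-θ * tdist b y) * (ψ b - r) ^ 2 ≤
      2 * ∑ b, Real.exp (-θ * tdist b y) * (ψ b - ψ y) ^ 2 + 2 * B * (ψ y - r) ^ 2 := by
  have h3 : ∑ b, Real.exp (-θ * tdist b y) ≤ B :=
    (Equiv.sum_comp (Equiv.subRight y) fun u => Real.exp (-θ * nrm u)).trans_le P2
  calc _ ≤ ∑ b, (2 * (Real.exp (-θ * tdist b y) * (ψ b - ψ y) ^ 2) +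
        2 * Real.exp (-θ * tdist b y) * (ψ y - r) ^ 2) := sum_le_sum fun b _ => by
        have := mul_le_mul_of_nonneg_left (show (ψ b - r) ^ 2 ≤
          2 * (ψ b - ψ y) ^ 2 + 2 * (ψ y - r) ^ 2 by
            nlinarith [sq_nonneg (ψ b - ψ y - (ψ y - r))]) (Real.exp_pos (-θ * tdist b y)).le
        linarith
    _ ≤ _ := by
        rw [sum_add_distrib, ← mul_sum, ← sum_mul, ← mul_sum]
        gcongr

lemma err_part {π : Tor d M → ℝ} {γ c T D C θ : ℝ} (h : Step π γ c) {L : ℕ} (hLn : 1 ≤ L)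
    (hT0 : 0 < T) (hC : 1 ≤ C) (hD : 0 ≤ D) (hθ : 0 < θ) (hθ1 : θ ≤ 1)
    (h2 : ∀ p : Tor d M, ((tball p L).card : ℝ) ≤ D * T) (ψ : Tor d M → ℝ)
    (hk : ∑ p, ∑ x ∈ tball p L, (ψ x - cp L p ψ) ^ 2 ≤
      D ^ 2 * T * (C * (1 + (γ * (8 * L)) ^ 2) * Dir π ψ))
    (P2 : ∑ u : Tor d M, Real.exp (-θ * nrm u) ≤ (C / θ) ^ d)
    (P3 : ∑ a, ∑ b, Real.exp (-θ * tdist a b) * (ψ a - ψ b) ^ 2 ≤ (C / θ) ^ (d + 3) * Dir π ψ) :
    ∑ p, ∑ y ∈ tball p L, ∑ b, Real.exp (-θ * tdist b y) * (ψ b - cp L p ψ) ^ 2 ≤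
      (2 * D + 130 * D ^ 2) * (C * L / θ) ^ (d + 3) * (T * Dir π ψ) := by
  have hE := h.Dir_nonneg ψ
  have hγ0 := h.γ_pos
  have hL1 : (1 : ℝ) ≤ L := by exact_mod_cast hLn
  have w0 : C / θ ≤ C * L / θ :=
    div_le_div_of_nonneg_right (le_mul_of_one_le_right (by positivity) hL1) hθ.le
  have w1 : (C / θ) ^ (d + 3) ≤ (C * L / θ) ^ (d + 3) := pow_le_pow_left₀ (by positivity) w0 _
  have w2 : (C / θ) ^ d * (C * L ^ 2) ≤ (C * L / θ) ^ (d + 3) := by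
    rw [pow_add]
    refine mul_le_mul (pow_le_pow_left₀ (by positivity) w0 _) ?_ (by positivity) (by positivity)
    have h3 : C * L ≤ C * L / θ := le_div_self (by positivity) hθ hθ1
    have h4 : (L : ℝ) ≤ C * L := le_mul_of_one_le_left (by positivity) hC
    calc C * L ^ 2 = C * L * L * 1 := by ring
      _ ≤ C * L / θ * (C * L / θ) * (C * L / θ) := by gcongr <;> linarith
      _ = _ := by ring
  generalize (C * L / θ) ^ (d + 3) = W at *
  have e2 := sum_le_sum fun p (_ : p ∈ univ) => sum_le_sum fun y (_ : y ∈ tball p L) =>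
    err_pt P2 ψ (cp L p ψ) y
  simp only [sum_add_distrib, ← mul_sum] at e2
  have e3 := sum_ball h2 (F := fun y => ∑ b, Real.exp (-θ * tdist b y) * (ψ b - ψ y) ^ 2)
    fun y => sum_nonneg fun _ _ => mul_nonneg (Real.exp_pos _).le (sq_nonneg _)
  have e4 : ∑ y, ∑ b, Real.exp (-θ * tdist b y) * (ψ b - ψ y) ^ 2 ≤ W * Dir π ψ := by
    rw [sum_comm]
    exact P3.trans (mul_le_mul_of_nonneg_right w1 hE)
  have e5 : 1 + (γ * (8 * L)) ^ 2 ≤ 65 * (L : ℝ) ^ 2 := by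
    have h3 : (γ * (8 * L)) ^ 2 ≤ (1 * (8 * L)) ^ 2 := by gcongr; exact h.γ_le
    nlinarith
  have e7 := mul_le_mul_of_nonneg_left e4 (mul_nonneg hD hT0.le)
  generalize ∑ p, ∑ x ∈ tball p L, (ψ x - cp L p ψ) ^ 2 = A at *
  have e6 : 2 * (C / θ) ^ d * A ≤ 130 * D ^ 2 * W * (T * Dir π ψ) :=
    calc _ ≤ 2 * (C / θ) ^ d * (D ^ 2 * T * (C * (65 * L ^ 2) * Dir π ψ)) := by
          refine mul_le_mul_of_nonneg_left (hk.trans ?_) (by positivity)
          gcongr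
      _ = 130 * D ^ 2 * ((C / θ) ^ d * (C * L ^ 2)) * (T * Dir π ψ) := by ring
      _ ≤ _ := by gcongr
  linarith

lemma err_num {A B Q W T V E K μ σ : ℝ} {n : ℕ} (hA : A ≤ B * W * (T * E)) (hB : 0 ≤ B)
    (hW : 0 ≤ W) (hT : 0 ≤ T) (hV : T ≤ V) (hE : 0 ≤ E) (hK : 1 ≤ K) (hσ : 0 < σ)
    (hμ : σ ^ 2 / K ≤ μ) (hQ : K * B ≤ Q ^ n) : A ≤ Q ^ n * W / σ ^ 2 * V * (μ * E) := by
  have hμ0 : 0 < μ := lt_of_lt_of_le (by positivity) hμ
  have hV0 := hT.trans hV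
  have e8 : 1 ≤ K * (μ / σ ^ 2) := by
    rw [← mul_div_assoc, one_le_div (by positivity)]
    have := (div_le_iff₀ (by positivity)).1 hμ
    linarith
  calc A ≤ B * W * (T * E) * 1 := by linarith
    _ ≤ B * W * (V * E) * (K * (μ / σ ^ 2)) := by gcongr
    _ = K * B * (W / σ ^ 2 * V * (μ * E)) := by ring
    _ ≤ Q ^ n * (W / σ ^ 2 * V * (μ * E)) := by gcongr
    _ = _ := by ring

end Ct

open Ct in
/-- sliding cut-offs -/
theorem cut (hP : PoinStmt) : CutStmt := by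
  intro d c K _ hc hK
  obtain ⟨C, hC, H⟩ := hP d c hc
  obtain ⟨D, hD⟩ : ∃ D : ℝ, D = 17 ^ d := ⟨_, rfl⟩
  have hD1 : 1 ≤ D := hD ▸ one_le_pow₀ (by norm_num)
  obtain ⟨C₁, hC₁⟩ : ∃ C₁ : ℝ, C₁ = 4 * D + 2 * D ^ 2 * C * (K ^ 2 + 64) / c ^ 2 := ⟨_, rfl⟩
  have hC₁0 : 0 ≤ C₁ := by rw [hC₁]; positivity
  obtain ⟨Q, hQ⟩ : ∃ Q : ℝ, Q = K * (2 * D + 130 * D ^ 2) + C₁ := ⟨_, rfl⟩
  have hQ0 : 1 ≤ K * (2 * D + 130 * D ^ 2) := by nlinarith [sq_nonneg D]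
  have hQ1 : 1 ≤ Q := by linarith
  have e7 : C₁ ≤ C * Q := by nlinarith
  have e9 : K * (2 * D + 130 * D ^ 2) ≤ Q ^ (d + 3) :=
    (show _ ≤ Q by linarith).trans (le_self_pow₀ hQ1 (by omega))
  refine ⟨C * Q, by nlinarith, fun M _ hM π γ σ μ h hσ hσ1 hγ _ hμ L hL => ?_⟩
  obtain ⟨P1, P2, P3⟩ := H M π γ h
  have hL1 : (1 : ℝ) ≤ L := hL.trans (mul_le_of_le_one_left (Nat.cast_nonneg _)
    (pow_le_one₀ hσ.le hσ1))
  have hLn : 1 ≤ L := by exact_mod_cast hL1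
  have hγ0 := h.γ_pos
  have hμ0 : 0 < μ := lt_of_lt_of_le (by positivity) hμ
  obtain ⟨T, hT⟩ : ∃ T : ℝ, T = ((min L (M / 8) : ℕ) : ℝ) ^ d := ⟨_, rfl⟩
  have hT0 : 0 < T := hT ▸ pow_pos (Nat.cast_pos.2 (by omega)) d
  have h1 : ∀ p : Tor d M, T ≤ (cs L p).card := fun p => by
    rw [hT]; exact_mod_cast cs_ge L p
  have h2 : ∀ r ≤ 8 * L, ∀ p : Tor d M, ((tball p r).card : ℝ) ≤ D * T := fun r hr p => by
    rw [hT, hD]; exact_mod_cast ball_le hM hLn hr p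
  have hV : T ≤ AC.vol d M L := by
    rw [hT, AC.vol]; exact_mod_cast ball_ge 0 (by omega) (min_le_left _ _)
  have hk : ∀ (ψ : Tor d M → ℝ), ∀ r ≤ 4 * L, ∑ p, ∑ x ∈ tball p r, (ψ x - cp L p ψ) ^ 2 ≤
      D ^ 2 * T * (C * (1 + (γ * (8 * L)) ^ 2) * Dir π ψ) := fun ψ r hr => by
    have := h.Dir_nonneg ψ
    refine key hr hT0 (by positivity) (by positivity) h1 h2 fun u hu => (P1 ψ u).trans ?_
    have : (nrm u : ℝ) ≤ 8 * L := by exact_mod_cast hu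
    gcongr
  refine ⟨chi L, cp L, chi_nonneg L, chi_le_one L, fun _ _ => chi_one hLn, fun _ _ => chi_zero,
    fun p ψ hψ hp => ?_, fun ψ => ?_, fun θ hθ hθ1 ψ => ?_⟩
  · rw [cp_apply, sum_eq_zero fun a ha => hψ a ?_, mul_zero]
    rw [cs, if_pos hp] at ha
    exact (mem_inter.1 ha).1
  · have hE := h.Dir_nonneg ψ
    have e6 := ims_part h hLn hK hγ hL hT0 hC (h2 _ (by omega)) ψ (hk ψ _ (by omega))
    rw [← hC₁] at e6
    calc _ = μ * ∑ p, Dir π (fun x => chi L p x * (ψ x - cp L p ψ)) := (mul_sum _ _ _).symm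
      _ ≤ μ * (C₁ * (T * Dir π ψ)) := mul_le_mul_of_nonneg_left e6 hμ0.le
      _ ≤ μ * (C * Q * (AC.vol d M L * Dir π ψ)) := by gcongr
      _ = _ := by ring
  · have e1 := err_part h hLn hT0 hC (by positivity) hθ hθ1 (h2 _ (by omega)) ψ
      (hk ψ _ (by omega)) (P2 θ hθ hθ1) (P3 θ hθ hθ1 ψ)
    refine (err_num e1 (by positivity) (by positivity) hT0.le hV (h.Dir_nonneg ψ) hK hσ hμ
      e9).trans_eq ?_
    rw [show C * Q * L / θ = Q * (C * L / θ) by ring, mul_pow]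

end Crest.Agent.N334.AC.I
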