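import Crest.Agent.N334.AC.I.Ker

/-!
# Row 334, S0520, part I (helper24): dispersive bounds for the free resolvent near the band bottom
-/

set_option autoImplicit false
set_option linter.unusedSectionVars false

open Finset Complex MeasureTheory
open scoped ComplexConjugate

namespace Crest.Agent.N334.AC.I

variable {d M : ℕ} [NeZero M]

/-- the inner region of the dual torus -/
def In (k : Tor d M) : Prop := ∀ j, inn (k j)

instance : DecidablePred (In (d := d) (M := M)) := fun k => by unfold In; infer_instance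

lemma le_eps (k : Tor d M) : -2 * d ≤ eps k := by
  unfold eps
  have : ∑ j, 2 * Real.cos (ang (k j)) ≤ ∑ _j : Fin d, (2 : ℝ) :=
    sum_le_sum fun j _ => by linarith [Real.cos_le_one (ang (k j))]
  simp only [sum_const, card_univ, Fintype.card_fin, nsmul_eq_mul] at this
  linarith

lemma le_eps_of_cos (k : Tor d M) (j : Fin d) :
    -2 * d + 2 * (1 - Real.cos (ang (k j))) ≤ eps k := by
  unfold eps
  have h : 2 * (1 - Real.cos (ang (k j))) ≤ ∑ i, 2 * (1 - Real.cos (ang (k i))) :=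
    single_le_sum (f := fun i => 2 * (1 - Real.cos (ang (k i))))
      (fun i _ => by linarith [Real.cos_le_one (ang (k i))]) (mem_univ j)
  simp only [mul_sub, sum_sub_distrib, sum_const, card_univ, Fintype.card_fin, nsmul_eq_mul] at h ⊢
  linarith

lemma norm_Gh_le_of {z : ℂ} {k : Tor d M} {c : ℝ} (hc : 0 < c) (h : c ≤ |eps k - z.re|) :
    ‖Gh z k‖ ≤ c⁻¹ := by
  rw [Gh, norm_inv]
  refine inv_anti₀ hc (h.trans ?_)
  simpa using Complex.abs_re_le_norm ((eps k : ℂ) - z)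

lemma norm_Gh_out {z : ℂ} (hz : z.re ≤ -2 * d + 1 / 4) {k : Tor d M} (hk : ¬ In k) :
    ‖Gh z k‖ ≤ 4 := by
  obtain ⟨j, hj⟩ := not_forall.1 hk
  have h1 := le_eps_of_cos k j
  have h2 := cos_le_of_not_inn hj
  have := norm_Gh_le_of (z := z) (k := k) (c := 1 / 4) (by norm_num)
    (le_trans (by linarith) (le_abs_self _))
  simpa using this

/-- the cut-off propagator -/
noncomputable def Kt (t : ℝ) (x : Tor d M) : ℂ :=
  iF (fun k => if In k then exp (((-(t * eps k) : ℝ) : ℂ) * I) else 0) x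

lemma Kt_eq (t : ℝ) (x : Tor d M) : Kt t x = ∏ j, ker2 t 0 0 (x j) := by
  unfold Kt iF ker2
  rw [prod_mul_distrib, prod_const, card_univ, Fintype.card_fin, Finset.prod_univ_sum,
    Fintype.piFinset_univ]
  congr 1
  · simp [vol]
  refine sum_congr rfl fun k _ => ?_
  rw [prod_ite_zero]
  simp only [mem_univ, forall_true_left, true_or, and_true, In, ite_mul, zero_mul]
  split_ifs
  · rw [prod_mul_distrib, ← ch_eq_prod, ← Complex.exp_sum, ← sum_mul]
    congr 3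
    simp only [eps, mul_zero, zero_mul, add_zero, mul_neg, neg_neg, mul_sum]
    push_cast
    exact sum_congr rfl fun j _ => by ring
  · rfl

lemma cube_le {κ a b : ℝ} (h0 : 0 ≤ κ) (h1 : κ ≤ 1) (ha : 0 ≤ a) (hb : 0 ≤ b) (h : κ ≤ a + b) :
    κ ^ 3 ≤ 8 * a ^ 3 + 2 * b := by
  rcases le_total b a with hab | hab
  · have : κ ^ 3 ≤ (2 * a) ^ 3 := pow_le_pow_left₀ h0 (by linarith) 3
    nlinarith
  · have : κ ^ 3 ≤ κ := pow_le_of_le_one h0 h1 (by norm_num)
    nlinarith [pow_nonneg ha 3]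

lemma prod_le_cube (hd : 3 ≤ d) (f : Fin d → ℝ) {a b : ℝ} (h0 : ∀ j, 0 ≤ f j) (h1 : ∀ j, f j ≤ 1)
    (ha : 0 ≤ a) (hb : 0 ≤ b) (h : ∀ j, f j ≤ a + b) : ∏ j, f j ≤ 8 * a ^ 3 + 2 * b := by
  have hκ0 : 0 ≤ min 1 (a + b) := le_min zero_le_one (by linarith)
  calc ∏ j, f j ≤ ∏ _j : Fin d, min 1 (a + b) :=
        prod_le_prod (fun j _ => h0 j) fun j _ => le_min (h1 j) (h j)
    _ = min 1 (a + b) ^ d := by simp
    _ ≤ min 1 (a + b) ^ 3 := pow_le_pow_of_le_one hκ0 (min_le_left _ _) hd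
    _ ≤ _ := cube_le hκ0 (min_le_left _ _) ha hb (min_le_right _ _)

lemma norm_ker2_le' (hM : 32 ≤ M) {t s : ℝ} (ht : 0 ≤ t) (hs : 0 ≤ s) (p y : ZMod M) :
    ‖ker2 t s p y‖ ≤ 9 / √(1 + (t + s)) + 4 * (t + s + y.valMinAbs.natAbs) / M := by
  have hr : 0 < √(1 + (t + s)) := Real.sqrt_pos.2 (by linarith)
  have hb : 0 ≤ 4 * (t + s + y.valMinAbs.natAbs) / M := by positivity
  rcases le_total (t + s) 64 with h | h
  · have : 1 ≤ 9 / √(1 + (t + s)) := by
      rw [le_div_iff₀ hr, one_mul, Real.sqrt_le_iff]; constructor <;> linarith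
    linarith [norm_ker2_le_one t s p y]
  · refine (norm_ker2_le hM ht hs (by linarith) p y).trans (add_le_add_left ?_ _)
    have hr' : 0 < √(t + s) := Real.sqrt_pos.2 (by linarith)
    rw [div_le_div_iff₀ hr' hr]
    have e1 := Real.sq_sqrt (show 0 ≤ 1 + (t + s) by linarith)
    have e2 := Real.sq_sqrt (show 0 ≤ t + s by linarith)
    nlinarith [sq_nonneg (8 * √(1 + (t + s)) - 9 * √(t + s))]

lemma norm_Kt_le (hd : 3 ≤ d) (hM : 32 ≤ M) {t : ℝ} (ht : 0 ≤ t) (x : Tor d M) :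
    ‖Kt t x‖ ≤ 5832 * (√(1 + t) ^ 3)⁻¹ + 8 * (t + nrm x) / M := by
  rw [Kt_eq, norm_prod]
  have hM0 : (0 : ℝ) < M := Nat.cast_pos.2 (NeZero.pos M)
  refine (prod_le_cube hd _ (a := 9 / √(1 + t)) (b := 4 * (t + nrm x) / M) (fun j => norm_nonneg _)
    (fun j => norm_ker2_le_one _ _ _ _) (by positivity) (by positivity) fun j => ?_).trans
    (le_of_eq (by ring))
  refine (norm_ker2_le' hM ht le_rfl 0 (x j)).trans ?_
  simp only [add_zero]
  have : ((x j).valMinAbs.natAbs : ℝ) ≤ nrm x := by exact_mod_cast le_nrm x j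
  gcongr

lemma Gh_eq_int {z : ℂ} (hz : 0 < z.im) (k : Tor d M) :
    IntegrableOn (fun t : ℝ => exp (I * z * t) * exp (((-(t * eps k) : ℝ) : ℂ) * I)) (Set.Ioi 0) ∧
    Gh z k = I * ∫ t in Set.Ioi (0 : ℝ), exp (I * z * t) * exp (((-(t * eps k) : ℝ) : ℂ) * I) := by
  have e : ∀ t : ℝ, exp (I * z * t) * exp (((-(t * eps k) : ℝ) : ℂ) * I) =
      exp ((I * (z - eps k)) * t) := by
    intro t; rw [← Complex.exp_add]; congr 1; push_cast; ring
  have ha : (I * (z - eps k)).re < 0 := by simp; linarith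
  simp only [e]
  refine ⟨integrableOn_exp_mul_complex_Ioi ha 0, ?_⟩
  rw [integral_exp_mul_complex_Ioi ha]
  have h1 := eps_sub_ne hz k
  have h2 : z - eps k ≠ 0 := fun h => h1 (by linear_combination -h)
  simp only [Gh, ofReal_zero, mul_zero, Complex.exp_zero]
  field_simp
  ring

/-- the inner part of the resolvent -/
noncomputable def Gin (z : ℂ) (x : Tor d M) : ℂ := iF (fun k => if In k then Gh z k else 0) x

lemma Gin_eq {z : ℂ} (hz : 0 < z.im) (x : Tor d M) :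
    IntegrableOn (fun t : ℝ => exp (I * z * t) * Kt t x) (Set.Ioi 0) ∧
    Gin z x = I * ∫ t in Set.Ioi (0 : ℝ), exp (I * z * t) * Kt t x := by
  let F : Tor d M → ℝ → ℂ := fun k t => (if In k then ((vol d M : ℝ) : ℂ)⁻¹ * ch k x else 0) *
    (exp (I * z * t) * exp (((-(t * eps k) : ℝ) : ℂ) * I))
  have e : ∀ t : ℝ, exp (I * z * t) * Kt t x = ∑ k, F k t := by
    intro t
    simp only [Kt, iF, mul_sum, F]
    refine sum_congr rfl fun k _ => ?_
    split_ifs <;> ring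
  have hF : ∀ k, IntegrableOn (F k) (Set.Ioi 0) := fun k => (Gh_eq_int hz k).1.const_mul _
  simp only [e]
  refine ⟨integrable_finsetSum _ fun k _ => hF k, ?_⟩
  rw [integral_finsetSum _ fun k _ => hF k]
  simp only [Gin, iF, mul_sum, F, integral_const_mul]
  refine sum_congr rfl fun k _ => ?_
  rw [(Gh_eq_int hz k).2]
  split_ifs <;> ring

/-- the finite-size error -/
noncomputable def err (γ X : ℝ) : ℝ := 32 * (2 / γ + X) / γ

lemma int_bound (hd : 3 ≤ d) (hM : 32 ≤ M) {γ : ℝ} (hγ : 0 < γ) (x : Tor d M) (w : ℝ → ℂ)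
    (g : ℝ → ℝ) (hg : IntegrableOn g (Set.Ioi 0))
    (h1 : ∀ t, 0 < t → ‖w t‖ * (√(1 + t) ^ 3)⁻¹ ≤ g t)
    (h2 : ∀ t, 0 < t → ‖w t‖ ≤ 2 * Real.exp (-γ * t)) :
    ‖∫ t in Set.Ioi (0 : ℝ), w t * Kt t x‖ ≤
      5832 * (∫ t in Set.Ioi (0 : ℝ), g t) + err γ (nrm x) / M := by
  have hM0 : (0 : ℝ) < M := Nat.cast_pos.2 (NeZero.pos M)
  have hγ2 : -(γ / 2) < 0 := by linarith
  have hi := integrableOn_exp_mul_Ioi hγ2 0
  have hb : ‖∫ t in Set.Ioi (0 : ℝ), w t * Kt t x‖ ≤ ∫ t in Set.Ioi (0 : ℝ),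
      (5832 * g t + 16 * (2 / γ + nrm x) / M * Real.exp (-(γ / 2) * t)) := by
    refine norm_integral_le_of_norm_le ((hg.const_mul _).add (hi.const_mul _)) ?_
    refine (ae_restrict_iff' measurableSet_Ioi).2 (Filter.Eventually.of_forall fun t ht => ?_)
    have ht : 0 < t := ht
    rw [norm_mul]
    refine (mul_le_mul_of_nonneg_left (norm_Kt_le hd hM ht.le x) (norm_nonneg _)).trans ?_
    rw [mul_add]
    refine add_le_add (by nlinarith [h1 t ht]) ?_
    have e1 : Real.exp (-γ * t) = Real.exp (-(γ / 2) * t) * Real.exp (-(γ / 2) * t) := by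
      rw [← Real.exp_add]; ring_nf
    have e2 : t * Real.exp (-(γ / 2) * t) ≤ 2 / γ := by
      have := Real.add_one_le_exp (γ / 2 * t)
      rw [neg_mul, Real.exp_neg, ← div_eq_mul_inv, div_le_div_iff₀ (Real.exp_pos _) hγ]
      nlinarith
    have e3 : Real.exp (-(γ / 2) * t) ≤ 1 := Real.exp_le_one_iff.2 (by nlinarith)
    have e4 : (t + nrm x) * Real.exp (-(γ / 2) * t) ≤ 2 / γ + nrm x := by
      rw [add_mul]; exact add_le_add e2 (mul_le_of_le_one_right (by positivity) e3)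
    calc ‖w t‖ * (8 * (t + nrm x) / M) ≤ 2 * Real.exp (-γ * t) * (8 * (t + nrm x) / M) := by
          gcongr; exact h2 t ht
      _ = 16 * ((t + nrm x) * Real.exp (-(γ / 2) * t)) / M * Real.exp (-(γ / 2) * t) := by
          rw [e1]; ring
      _ ≤ _ := by gcongr
  refine hb.trans (le_of_eq ?_)
  rw [integral_add (hg.const_mul _) (hi.const_mul _), integral_const_mul, integral_const_mul,
    integral_exp_mul_Ioi hγ2]
  simp only [err, mul_zero, Real.exp_zero]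
  field_simp
  ring

lemma hasDerivAt_r {t : ℝ} (ht : 0 ≤ t) :
    HasDerivAt (fun t => √(1 + t)) (1 / (2 * √(1 + t))) t := by
  simpa using ((hasDerivAt_id t).const_add 1).sqrt (by simp only [id]; linarith)

lemma tendsto_r : Filter.Tendsto (fun t : ℝ => √(1 + t)) Filter.atTop Filter.atTop :=
  Real.tendsto_sqrt_atTop.comp (Filter.tendsto_atTop_add_const_left _ _ Filter.tendsto_id)

lemma int_cube : IntegrableOn (fun t : ℝ => (√(1 + t) ^ 3)⁻¹) (Set.Ioi 0) ∧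
    ∫ t in Set.Ioi (0 : ℝ), (√(1 + t) ^ 3)⁻¹ = 2 := by
  have hd : ∀ t ∈ Set.Ici (0 : ℝ), HasDerivAt (fun t => -2 * (√(1 + t))⁻¹) (√(1 + t) ^ 3)⁻¹ t := by
    intro t ht
    have hr : 0 < √(1 + t) := Real.sqrt_pos.2 (by linarith [show 0 ≤ t from ht])
    refine (((hasDerivAt_r ht).inv hr.ne').const_mul (-2)).congr_deriv ?_
    field_simp
  have hl : Filter.Tendsto (fun t : ℝ => -2 * (√(1 + t))⁻¹) Filter.atTop (nhds 0) := by
    simpa using (tendsto_inv_atTop_zero.comp tendsto_r).const_mul (-2)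
  refine ⟨integrableOn_Ioi_deriv_of_nonneg' hd (fun t _ => by positivity) hl, ?_⟩
  rw [integral_Ioi_of_hasDerivAt_of_nonneg' hd (fun t _ => by positivity) hl]
  simp

lemma int_hold {a : ℝ} (ha : 0 < a) :
    IntegrableOn (fun t : ℝ => a ^ 2 * (√(1 + t) * (1 + a * √(1 + t)) ^ 2)⁻¹) (Set.Ioi 0) ∧
    ∫ t in Set.Ioi (0 : ℝ), a ^ 2 * (√(1 + t) * (1 + a * √(1 + t)) ^ 2)⁻¹ ≤ 2 * a := by
  have hd : ∀ t ∈ Set.Ici (0 : ℝ), HasDerivAt (fun t => -2 * a * (1 + a * √(1 + t))⁻¹)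
      (a ^ 2 * (√(1 + t) * (1 + a * √(1 + t)) ^ 2)⁻¹) t := by
    intro t ht
    have hr : 0 < √(1 + t) := Real.sqrt_pos.2 (by linarith [show 0 ≤ t from ht])
    refine (((((hasDerivAt_r ht).const_mul a).const_add 1).inv (by positivity)).const_mul
      (-2 * a)).congr_deriv ?_
    field_simp
  have hl : Filter.Tendsto (fun t : ℝ => -2 * a * (1 + a * √(1 + t))⁻¹) Filter.atTop (nhds 0) := by
    simpa using (tendsto_inv_atTop_zero.comp (Filter.tendsto_atTop_add_const_left _ 1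
      (tendsto_r.const_mul_atTop ha))).const_mul (-2 * a)
  refine ⟨integrableOn_Ioi_deriv_of_nonneg' hd (fun t _ => by positivity) hl, ?_⟩
  rw [integral_Ioi_of_hasDerivAt_of_nonneg' hd (fun t _ => by positivity) hl]
  simp only [add_zero, Real.sqrt_one, mul_one, zero_sub]
  have : (1 + a)⁻¹ ≤ 1 := inv_le_one_of_one_le₀ (by linarith)
  nlinarith

lemma norm_exp_Iz {z : ℂ} {γ t : ℝ} (hz : γ ≤ z.im) (ht : 0 ≤ t) :
    ‖exp (I * z * t)‖ ≤ Real.exp (-γ * t) := by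
  rw [Complex.norm_exp]
  apply Real.exp_le_exp.2
  simp; nlinarith

lemma norm_cexp_sub_le {a b : ℂ} (ha : a.re ≤ 0) (hb : b.re ≤ 0) : ‖exp a - exp b‖ ≤ ‖a - b‖ := by
  have := Convex.norm_image_sub_le_of_norm_deriv_le (𝕜 := ℂ) (f := exp) (C := 1)
    (s := {c : ℂ | c.re ≤ 0}) (fun c _ => Complex.differentiableAt_exp)
    (fun c hc => by
      rw [Complex.deriv_exp, Complex.norm_exp]; exact Real.exp_le_one_iff.2 hc)
    (convex_halfSpace_re_le 0) hb ha
  simpa using this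

lemma norm_Gin_le (hd : 3 ≤ d) (hM : 32 ≤ M) {γ : ℝ} (hγ : 0 < γ) {z : ℂ} (hz : γ ≤ z.im)
    (x : Tor d M) : ‖Gin z x‖ ≤ 11664 + err γ (nrm x) / M := by
  rw [(Gin_eq (hγ.trans_le hz) x).2, norm_mul, Complex.norm_I, one_mul]
  have h1 : ∀ t : ℝ, 0 < t → ‖exp (I * z * t)‖ ≤ Real.exp (-γ * t) :=
    fun t ht => norm_exp_Iz hz ht.le
  refine (int_bound hd hM hγ x _ _ int_cube.1 (fun t ht => ?_) fun t ht => ?_).trans
    (le_of_eq (by rw [int_cube.2]; norm_num))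
  · exact mul_le_of_le_one_left (by positivity)
      ((h1 t ht).trans (Real.exp_le_one_iff.2 (by nlinarith)))
  · linarith [h1 t ht, Real.exp_pos (-γ * t)]

lemma norm_Gin_sub_le (hd : 3 ≤ d) (hM : 32 ≤ M) {γ : ℝ} (hγ : 0 < γ) {z z' : ℂ} (hz : γ ≤ z.im)
    (hz' : γ ≤ z'.im) (x : Tor d M) :
    ‖Gin z x - Gin z' x‖ ≤ 69984 * √‖z - z'‖ + err γ (nrm x) / M := by
  have hM0 : (0 : ℝ) < M := Nat.cast_pos.2 (NeZero.pos M)
  rcases eq_or_ne z z' with rfl | hne
  · simp only [sub_self, norm_zero, Real.sqrt_zero, mul_zero, zero_add, err]; positivity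
  have hδ : 0 < ‖z - z'‖ := norm_pos_iff.2 (sub_ne_zero.2 hne)
  set a := √‖z - z'‖ with ha
  have ha0 : 0 < a := Real.sqrt_pos.2 hδ
  have ha2 : a ^ 2 = ‖z - z'‖ := Real.sq_sqrt hδ.le
  obtain ⟨i1, e1⟩ := Gin_eq (hγ.trans_le hz) x
  obtain ⟨i2, e2⟩ := Gin_eq (hγ.trans_le hz') x
  rw [e1, e2, ← mul_sub, norm_mul, Complex.norm_I, one_mul, ← integral_sub i1 i2]
  simp only [← sub_mul]
  have h2 : ∀ t : ℝ, 0 < t → ‖exp (I * z * t) - exp (I * z' * t)‖ ≤ 2 * Real.exp (-γ * t) := by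
    intro t ht
    linarith [norm_sub_le (exp (I * z * t)) (exp (I * z' * t)), norm_exp_Iz hz ht.le,
      norm_exp_Iz hz' ht.le]
  refine (int_bound hd hM hγ x _ _ ((int_hold ha0).1.const_mul 6) (fun t ht => ?_) h2).trans ?_
  · have hr : 0 < √(1 + t) := Real.sqrt_pos.2 (by linarith)
    have hr2 : √(1 + t) ^ 2 = 1 + t := Real.sq_sqrt (by linarith)
    set r := √(1 + t)
    set w := ‖exp (I * z * t) - exp (I * z' * t)‖
    have w1 : w ≤ 2 := (h2 t ht).trans (by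
      have : Real.exp (-γ * t) ≤ 1 := Real.exp_le_one_iff.2 (by nlinarith)
      linarith)
    have w2 : w ≤ (a * r) ^ 2 := by
      refine (norm_cexp_sub_le (by simp; nlinarith) (by simp; nlinarith)).trans ?_
      rw [← sub_mul, ← mul_sub, norm_mul, norm_mul, Complex.norm_I, one_mul, Complex.norm_real,
        Real.norm_of_nonneg ht.le, mul_pow, ha2, hr2]
      nlinarith
    have w3 : w * (1 + a * r) ^ 2 ≤ 6 * (a * r) ^ 2 := by
      have hu : 0 < a * r := by positivity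
      generalize a * r = u at *
      have hw0 : 0 ≤ w := norm_nonneg _
      have : (1 + u) ^ 2 ≤ 2 * (1 + u ^ 2) := by nlinarith [sq_nonneg (1 - u)]
      nlinarith [mul_le_mul_of_nonneg_left this hw0]
    rw [← div_eq_mul_inv, ← div_eq_mul_inv, ← mul_div_assoc,
      div_le_div_iff₀ (by positivity) (by positivity)]
    nlinarith [mul_le_mul_of_nonneg_left w3 hr.le]
  · rw [integral_const_mul]
    linarith [(int_hold ha0).2]

lemma G0_sub_Gin (z : ℂ) (x : Tor d M) :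
    G0 z x - Gin z x = iF (fun k => if In k then 0 else Gh z k) x := by
  rw [G0, Gin, ← iF_sub]
  congr 1; funext k; split_ifs <;> simp

lemma norm_G0_near (hd : 3 ≤ d) (hM : 32 ≤ M) {γ : ℝ} (hγ : 0 < γ) {z : ℂ} (hz : γ ≤ z.im)
    (hr : z.re ≤ -2 * d + 1 / 4) (x : Tor d M) : ‖G0 z x‖ ≤ 11668 + err γ (nrm x) / M := by
  have h1 : ‖G0 z x - Gin z x‖ ≤ 4 := by
    rw [G0_sub_Gin]
    refine norm_iF_le_of (fun k => ?_) x
    split_ifs with h
    · simp
    · exact norm_Gh_out hr h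
  linarith [norm_Gin_le hd hM hγ hz x, norm_le_norm_add_norm_sub' (G0 z x) (Gin z x)]

lemma Gh_sub {z z' : ℂ} (hz : 0 < z.im) (hz' : 0 < z'.im) (k : Tor d M) :
    Gh z k - Gh z' k = (z - z') * Gh z k * Gh z' k := by
  have h1 := eps_sub_ne hz k
  have h2 := eps_sub_ne hz' k
  simp only [Gh]; field_simp; ring

lemma norm_G0_sub_near (hd : 3 ≤ d) (hM : 32 ≤ M) {γ : ℝ} (hγ : 0 < γ) {z z' : ℂ}
    (hz : γ ≤ z.im) (hz' : γ ≤ z'.im) (hr : z.re ≤ -2 * d + 1 / 4) (hr' : z'.re ≤ -2 * d + 1 / 4)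
    (x : Tor d M) : ‖G0 z x - G0 z' x‖ ≤ 70000 * √‖z - z'‖ + err γ (nrm x) / M := by
  have h1 : ‖(G0 z x - Gin z x) - (G0 z' x - Gin z' x)‖ ≤ 16 * √‖z - z'‖ := by
    rw [G0_sub_Gin, G0_sub_Gin, ← iF_sub]
    refine norm_iF_le_of (fun k => ?_) x
    split_ifs with h
    · simp
    have a1 := norm_Gh_out hr h
    have a2 := norm_Gh_out hr' h
    have hs := Real.sq_sqrt (norm_nonneg (z - z'))
    have hs0 := Real.sqrt_nonneg ‖z - z'‖
    rcases le_total √‖z - z'‖ 1 with h1 | h1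
    · rw [Gh_sub (hγ.trans_le hz) (hγ.trans_le hz'), norm_mul, norm_mul]
      calc _ ≤ ‖z - z'‖ * 4 * 4 := by gcongr
        _ ≤ _ := by nlinarith
    · linarith [norm_sub_le (Gh z k) (Gh z' k)]
  have h2 := norm_Gin_sub_le hd hM hγ hz hz' x
  have h3 : G0 z x - G0 z' x =
      ((G0 z x - Gin z x) - (G0 z' x - Gin z' x)) + (Gin z x - Gin z' x) := by ring
  rw [h3]
  linarith [norm_add_le ((G0 z x - Gin z x) - (G0 z' x - Gin z' x)) (Gin z x - Gin z' x)]

end Crest.Agent.N334.AC.I
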