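import Crest.Agent.N334.AC.I.Step

/-!
# Row 334, S0520, part I (helper24): uniform bounds for large tori; the step distribution `γ|G0|²`
-/

set_option autoImplicit false
set_option linter.unusedSectionVars false

open Finset Complex
open scoped ComplexConjugate

namespace Crest.Agent.N334.AC.I

theorem est {d : ℕ} (hd : 3 ≤ d) {γ0 ε : ℝ} (hγ0 : 0 < γ0) (hε : 0 < ε) : ∃ M0 : ℕ,
    ∀ (M : ℕ) [NeZero M], M0 ≤ M → ∀ z : ℂ, z.re + 2 * d ≤ 1 / 4 → γ0 ≤ z.im →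
      (∀ x : Tor d M, ‖G0 z x‖ ≤ 11669) ∧ ∀ z' : ℂ, z'.re + 2 * d ≤ 1 / 4 → γ0 ≤ z'.im →
        ∀ x : Tor d M, ‖G0 z x - G0 z' x‖ ≤ 70000 * √‖z - z'‖ + ε := by
  have hd0 : (0 : ℝ) < d := by exact_mod_cast (by omega)
  set θ := min 1 (γ0 / (8 * d)) with hθ
  have hθ0 : 0 < θ := by positivity
  have hθ1 : θ ≤ 1 := min_le_left _ _
  have hθ2 : 8 * d * θ ≤ γ0 := by
    have := min_le_right 1 (γ0 / (8 * d))
    rw [le_div_iff₀ (by positivity)] at this; linarith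
  set e := min 1 ε with he
  have he0 : 0 < e := by positivity
  have he1 : e ≤ 1 := min_le_left _ _
  have he2 : e ≤ ε := min_le_right _ _
  obtain ⟨X, hX0, hX⟩ : ∃ X : ℝ, 0 ≤ X ∧ 4 * γ0⁻¹ * Real.exp (-(θ * X)) ≤ e := by
    refine ⟨4 * γ0⁻¹ / e / θ, by positivity, ?_⟩
    rw [mul_div_cancel₀ _ hθ0.ne', Real.exp_neg, ← div_eq_mul_inv, div_le_iff₀ (Real.exp_pos _)]
    have := Real.add_one_le_exp (4 * γ0⁻¹ / e)
    have h2 : e * (4 * γ0⁻¹ / e) = 4 * γ0⁻¹ := by field_simp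
    nlinarith
  refine ⟨⌈err γ0 X / e⌉₊ + 32, fun M _ hM z hr hz => ?_⟩
  have hM0 : (0 : ℝ) < M := Nat.cast_pos.2 (NeZero.pos M)
  have hM32 : 32 ≤ M := by omega
  have herr : ∀ x : Tor d M, (nrm x : ℝ) ≤ X → err γ0 (nrm x) / M ≤ e := by
    intro x hx
    have h1 : (⌈err γ0 X / e⌉₊ : ℝ) ≤ M := by exact_mod_cast (by omega)
    have h2 := (Nat.le_ceil _).trans h1
    rw [div_le_iff₀ he0] at h2
    have h3 : err γ0 (nrm x) ≤ err γ0 X := by unfold err; gcongr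
    rw [div_le_iff₀ hM0]; linarith
  have hfar : ∀ z : ℂ, γ0 ≤ z.im → ∀ x : Tor d M, X ≤ nrm x → ‖G0 z x‖ ≤ e / 2 := by
    intro z hz x hx
    refine (norm_G0_le_exp (hγ0.trans_le hz) hθ0.le hθ1 (hθ2.trans hz) x).trans ?_
    have : 2 * z.im⁻¹ * Real.exp (-(θ * nrm x)) ≤ 2 * γ0⁻¹ * Real.exp (-(θ * X)) := by gcongr
    linarith
  refine ⟨fun x => ?_, fun z' hr' hz' x => ?_⟩
  · rcases le_total (nrm x : ℝ) X with hx | hx
    · linarith [norm_G0_near hd hM32 hγ0 hz (by linarith) x, herr x hx]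
    · linarith [hfar z hz x hx]
  · rcases le_total (nrm x : ℝ) X with hx | hx
    · linarith [norm_G0_sub_near hd hM32 hγ0 hz hz' (by linarith) (by linarith) x, herr x hx]
    · linarith [hfar z hz x hx, hfar z' hz' x hx, norm_sub_le (G0 z x) (G0 z' x),
        Real.sqrt_nonneg ‖z - z'‖]

theorem four {d : ℕ} (hd : 3 ≤ d) {γ0 : ℝ} (hγ0 : 0 < γ0) : ∃ M0 : ℕ,
    ∀ (M : ℕ) [NeZero M], M0 ≤ M → ∀ z : ℂ, z.re + 2 * d ≤ 1 / 4 → γ0 ≤ z.im → z.im ≤ 1 →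
      ∑ x : Tor d M, ‖G0 z x‖ ^ 4 ≤ 10 ^ 16 / √z.im := by
  obtain ⟨M0, h⟩ := est hd hγ0 hγ0
  refine ⟨M0, fun M _ hM z hr hz hz1 => ?_⟩
  have hγ : 0 < z.im := hγ0.trans_le hz
  set a := √z.im with ha
  have ha0 : 0 < a := Real.sqrt_pos.2 hγ
  have ha2 : a ^ 2 = z.im := Real.sq_sqrt hγ.le
  have ha1 : a ≤ 1 := Real.sqrt_le_one.2 hz1
  have haγ : z.im ≤ a := by nlinarith
  let z' : ℂ := ⟨z.re, a⟩
  obtain ⟨s1, h1⟩ := h M hM z hr hz
  obtain ⟨s2, -⟩ := h M hM z' hr (hz.trans haγ)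
  have hzz : ‖z - z'‖ ≤ a := by
    have : z - z' = ((z.im - a : ℝ) : ℂ) * I := by apply Complex.ext <;> simp [z']
    rw [this, norm_mul, Complex.norm_I, mul_one, Complex.norm_real, Real.norm_eq_abs, abs_le]
    constructor <;> linarith
  have h2 : ∀ x : Tor d M, ‖G0 z x - G0 z' x‖ ^ 2 ≤ 70001 ^ 2 * a := by
    intro x
    have e1 := h1 z' hr (hz.trans haγ) x
    have e2 : √‖z - z'‖ ≤ √a := Real.sqrt_le_sqrt hzz
    have e3 : a ≤ √a := by
      apply Real.le_sqrt_of_sq_le; nlinarith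
    have e4 : ‖G0 z x - G0 z' x‖ ≤ 70001 * √a := by linarith
    calc _ ≤ (70001 * √a) ^ 2 := pow_le_pow_left₀ (norm_nonneg _) e4 2
      _ = _ := by rw [mul_pow, Real.sq_sqrt ha0.le]
  have w1 : a ^ 2 * ∑ x : Tor d M, ‖G0 z x‖ ^ 2 ≤ 11669 := by
    rw [ha2, ward]
    exact (le_abs_self _).trans ((Complex.abs_im_le_norm _).trans (s1 0))
  have w2 : a * ∑ x : Tor d M, ‖G0 z' x‖ ^ 2 ≤ 11669 := by
    have := ward (d := d) (M := M) z'
    rw [show z'.im = a from rfl] at this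
    rw [this]
    exact (le_abs_self _).trans ((Complex.abs_im_le_norm _).trans (s2 0))
  have h3 : ∀ x : Tor d M, ‖G0 z x‖ ^ 4 ≤ 8 * 11669 ^ 2 * ‖G0 z' x‖ ^ 2 +
      16 * 70001 ^ 2 * a * (‖G0 z x‖ ^ 2 + ‖G0 z' x‖ ^ 2) := by
    intro x
    have e1 := norm_le_norm_add_norm_sub' (G0 z x) (G0 z' x)
    have e2 := norm_sub_le (G0 z x) (G0 z' x)
    have e3 := h2 x
    have e4 := s2 x
    have n1 := norm_nonneg (G0 z x)
    have n2 := norm_nonneg (G0 z' x)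
    have n3 := norm_nonneg (G0 z x - G0 z' x)
    generalize ‖G0 z x‖ = u at *
    generalize ‖G0 z' x‖ = v at *
    generalize ‖G0 z x - G0 z' x‖ = w at *
    have f1 : u ^ 2 ≤ 2 * (v ^ 2 + w ^ 2) := by nlinarith [sq_nonneg (v - w)]
    have f2 : u ^ 4 ≤ 8 * (v ^ 2 * v ^ 2) + 8 * (w ^ 2 * w ^ 2) := by
      have : (u ^ 2) ^ 2 ≤ (2 * (v ^ 2 + w ^ 2)) ^ 2 := pow_le_pow_left₀ (sq_nonneg _) f1 2
      nlinarith [sq_nonneg (v ^ 2 - w ^ 2)]
    have f3 : w ^ 2 ≤ 2 * (u ^ 2 + v ^ 2) := by nlinarith [sq_nonneg (u - v)]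
    have f4 : v ^ 2 ≤ 11669 ^ 2 := pow_le_pow_left₀ n2 e4 2
    have f5 : v ^ 2 * v ^ 2 ≤ 11669 ^ 2 * v ^ 2 := mul_le_mul_of_nonneg_right f4 (sq_nonneg _)
    have f6 : w ^ 2 * w ^ 2 ≤ 70001 ^ 2 * a * (2 * (u ^ 2 + v ^ 2)) :=
      mul_le_mul e3 f3 (sq_nonneg _) (by positivity)
    linarith
  refine (sum_le_sum fun x _ => h3 x).trans ?_
  rw [sum_add_distrib, ← mul_sum, ← mul_sum, sum_add_distrib, le_div_iff₀ ha0]
  have n2 : 0 ≤ ∑ x : Tor d M, ‖G0 z' x‖ ^ 2 := sum_nonneg fun _ _ => sq_nonneg _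
  nlinarith [mul_le_mul_of_nonneg_left ha1 n2, mul_le_mul_of_nonneg_left w2 ha0.le]

variable {d M : ℕ} [NeZero M]

/-- the step distribution `γ |G0|² / Im g` -/
noncomputable def stp (z : ℂ) (x : Tor d M) : ℝ :=
  z.im * ‖G0 z x‖ ^ 2 / (G0 z (0 : Tor d M)).im

lemma exists_nrm (hd : 1 ≤ d) (p : Tor d M) : ∃ j, (p j).valMinAbs.natAbs = nrm p := by
  have : Nonempty (Fin d) := ⟨⟨0, hd⟩⟩
  obtain ⟨j, -, hj⟩ := exists_mem_eq_sup (univ : Finset (Fin d)) univ_nonempty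
    fun j => (p j).valMinAbs.natAbs
  exact ⟨j, hj.symm⟩

lemma step_stp (hd : 1 ≤ d) {c : ℝ} (hc : 0 < c) (hc1 : c ≤ 1 / 10) {z : ℂ} (hz : 0 < z.im)
    (hz1 : z.im ≤ c) (hr : z.re + 2 * d ≤ 1 / 4) (hs : ‖G0 z (0 : Tor d M)‖ ≤ 11669)
    (h : ∀ j : Fin d, c * z.im ≤ av fun k : Tor d M => if Sh c z j k then 1 else 0) :
    Step (stp (d := d) (M := M) z) z.im (c ^ 3 / (466760 * d)) := by
  have hd1 : (1 : ℝ) ≤ d := by exact_mod_cast hd
  have hM0 : (0 : ℝ) < M := Nat.cast_pos.2 (NeZero.pos M)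
  have hg := im_G0_of_shell hz (h ⟨0, hd⟩)
  set g := (G0 z (0 : Tor d M)).im with hgdef
  have hg0 : 0 < g := by linarith
  have hg1 : g ≤ 11669 := (le_abs_self _).trans ((Complex.abs_im_le_norm _).trans hs)
  have hc3 : c ^ 3 ≤ c := by nlinarith [sq_nonneg c]
  have hc30 : 0 < c ^ 3 := by positivity
  have hc' : c ^ 3 / (466760 * d) ≤ c ^ 3 / 466760 := by gcongr; linarith
  have hone : ∑ x : Tor d M, stp z x = 1 := by
    simp only [stp, ← sum_div, ← mul_sum, ward]; exact div_self hg0.ne'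
  have hhat : ∀ (p : Tor d M) (s : ℝ), 1 + s * hat (stp z) p =
      (z.im * ∑ x : Tor d M, ‖G0 z x‖ ^ 2 * (1 + s * (ch p x).re)) / g := by
    intro p s
    nth_rw 1 [← hone]
    simp only [hat, mul_sum, ← sum_add_distrib, sum_div, stp]
    exact sum_congr rfl fun x _ => by rw [← hgdef]; ring
  refine ⟨hz, by linarith, by positivity, hc'.trans (by linarith), fun x => ?_, fun x => ?_, hone,
    fun p => ?_, ?_⟩
  · unfold stp; positivity
  · simp only [stp, G0_neg]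
  · have m0 := mm_nonneg z.im p
    have m1 := mm_le_one z.im p
    have hb : c ^ 3 / (466760 * d) * mm z.im p ≤ c ^ 3 / 466760 * mm z.im p := by gcongr
    rw [abs_le]
    constructor
    · have e1 := hhat p 1
      simp only [one_mul] at e1
      have e2 : c / 8 / 11669 ≤ 1 + hat (stp z) p := by
        rw [e1]; exact div_le_div₀ (by linarith [symb_plus hz (h ⟨0, hd⟩) p])
          (symb_plus hz (h ⟨0, hd⟩) p) hg0 hg1
      nlinarith
    · obtain ⟨j, hj⟩ := exists_nrm hd p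
      have e1 := hhat p (-1)
      simp only [neg_mul, one_mul, ← sub_eq_add_neg] at e1
      have e3 := symb_minus hc hc1 hz hz1 hr (h j) p
      have e4 : mm z.im p ≤ min 1 ((ang (p j) / z.im) ^ 2) := by
        refine min_le_min le_rfl ?_
        rw [← sq_abs (ang (p j) / z.im), abs_div, abs_ang_eq, abs_of_pos hz, hj, div_div,
          mul_comm (M : ℝ)]
        gcongr
        nlinarith [Real.pi_gt_three, Nat.cast_nonneg (α := ℝ) (nrm p)]
      have e5 : c ^ 3 / 40 * mm z.im p ≤ c ^ 3 / 40 * min 1 ((ang (p j) / z.im) ^ 2) := by gcongr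
      have e2 : c ^ 3 / 40 * mm z.im p / 11669 ≤ 1 - hat (stp z) p := by
        rw [e1]; exact div_le_div₀ (le_trans (by positivity) (e5.trans e3)) (e5.trans e3) hg0 hg1
      linarith
  · have hθ : 8 * d * (c ^ 3 / (466760 * d) * z.im) ≤ z.im := by
      have : 8 * d * (c ^ 3 / (466760 * d) * z.im) = c ^ 3 / 58345 * z.im := by field_simp; norm_num
      rw [this]; nlinarith
    have := ct (d := d) (M := M) hz (θ := c ^ 3 / (466760 * d) * z.im) (by positivity)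
      (by nlinarith [show 0 ≤ c ^ 3 / (466760 * d) * z.im by positivity]) hθ
    simp only [stp, div_mul_eq_mul_div _ g, ← hgdef, ← sum_div]
    rw [div_le_iff₀ hg0]
    refine le_trans (le_of_eq ?_) this
    rw [mul_sum]
    exact sum_congr rfl fun x _ => by ring

end Crest.Agent.N334.AC.I
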