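import Mathlib

/-!
# Row 334, S0520, part I (helper24): Fourier analysis on the discrete torus and the free resolvent
-/

set_option autoImplicit false
set_option linter.unusedSectionVars false

open Finset Complex
open scoped ComplexConjugate

namespace Crest.Agent.N334.AC.I

/-- the discrete torus -/
abbrev Tor (d M : ℕ) := Fin d → ZMod M

variable {d M : ℕ} [NeZero M]

/-- the characters of the torus -/
noncomputable def ch (k x : Tor d M) : ℂ := ZMod.stdAddChar (∑ j, k j * x j)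

lemma ch_comm (k x : Tor d M) : ch k x = ch x k := by
  simp only [ch, mul_comm]

lemma ch_add (k x y : Tor d M) : ch k (x + y) = ch k x * ch k y := by
  simp only [ch, Pi.add_apply, mul_add, sum_add_distrib, AddChar.map_add_eq_mul]

lemma ch_add' (k l x : Tor d M) : ch (k + l) x = ch k x * ch l x := by
  rw [ch_comm, ch_add, ch_comm x, ch_comm x]

@[simp] lemma ch_zero (k : Tor d M) : ch k 0 = 1 := by simp [ch]

@[simp] lemma ch_zero' (k : Tor d M) : ch 0 k = 1 := by simp [ch]

lemma norm_std (a : ZMod M) : ‖(ZMod.stdAddChar a : ℂ)‖ = 1 := by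
  rw [ZMod.stdAddChar_apply]; exact Circle.norm_coe _

@[simp] lemma norm_ch (k x : Tor d M) : ‖ch k x‖ = 1 := norm_std _

lemma ch_mul_neg (k x : Tor d M) : ch k x * ch k (-x) = 1 := by
  rw [← ch_add]; simp

lemma conj_ch (k x : Tor d M) : conj (ch k x) = ch k (-x) := by
  have h1 : ch k x * conj (ch k x) = 1 := by
    rw [Complex.mul_conj, Complex.normSq_eq_norm_sq, norm_ch]; simp
  have h0 : ch k x ≠ 0 := by
    intro h; have := norm_ch k x; rw [h] at this; simp at this
  exact mul_left_cancel₀ h0 (h1.trans (ch_mul_neg k x).symm)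

lemma ch_neg_neg (k x : Tor d M) : ch (-k) x = ch k (-x) := by
  simp [ch]

lemma ch_eq_prod (k x : Tor d M) : ch k x = ∏ j, ZMod.stdAddChar (k j * x j) := by
  unfold ch
  induction (univ : Finset (Fin d)) using Finset.induction_on with
  | empty => simp
  | insert a s ha ih => rw [sum_insert ha, prod_insert ha, AddChar.map_add_eq_mul, ih]

/-- number of sites -/
noncomputable def vol (d M : ℕ) : ℝ := (M : ℝ) ^ d

lemma vol_pos : 0 < vol d M := by
  have : (0 : ℝ) < M := Nat.cast_pos.2 (NeZero.pos M)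
  unfold vol; positivity

lemma card_tor : (Fintype.card (Tor d M) : ℝ) = vol d M := by
  simp [vol, Fintype.card_pi, ZMod.card]

lemma sum_ch (x : Tor d M) : ∑ k, ch k x = if x = 0 then (vol d M : ℂ) else 0 := by
  simp only [ch_eq_prod]
  rw [← Fintype.piFinset_univ, ← Finset.prod_univ_sum (fun _ => univ)
    (fun j (a : ZMod M) => (ZMod.stdAddChar (a * x j) : ℂ))]
  simp only [AddChar.sum_mulShift _ (ZMod.isPrimitive_stdAddChar M)]
  split_ifs with h
  · subst h; simp [vol, ZMod.card]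
  · obtain ⟨j, hj⟩ := Function.ne_iff.1 h
    exact Finset.prod_eq_zero (mem_univ j) (by simp [show x j ≠ 0 from hj])

/-- average over the dual torus -/
noncomputable def av (F : Tor d M → ℝ) : ℝ := (vol d M)⁻¹ * ∑ k, F k

/-- inverse Fourier transform -/
noncomputable def iF (F : Tor d M → ℂ) (x : Tor d M) : ℂ :=
  ((vol d M : ℝ) : ℂ)⁻¹ * ∑ k, F k * ch k x

/-- Fourier transform -/
noncomputable def fF (f : Tor d M → ℂ) (k : Tor d M) : ℂ := ∑ x, f x * ch k (-x)

lemma vol_ne : ((vol d M : ℝ) : ℂ) ≠ 0 := by exact_mod_cast (vol_pos (d := d) (M := M)).ne'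

lemma fF_iF (F : Tor d M → ℂ) (k : Tor d M) : fF (iF F) k = F k := by
  unfold fF iF
  simp only [mul_assoc, ← mul_sum, sum_mul]
  rw [sum_comm]
  have : ∀ l : Tor d M, ∑ x, F l * (ch l x * ch k (-x)) =
      if l = k then F l * (vol d M : ℂ) else 0 := by
    intro l
    simp only [← ch_neg_neg, ← ch_add', ← mul_sum]
    simp only [ch_comm (l + -k), sum_ch, add_neg_eq_zero]
    split_ifs <;> simp
  simp only [this, sum_ite_eq', mem_univ, if_true]
  rw [mul_left_comm, inv_mul_cancel₀ vol_ne, mul_one]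

lemma iF_fF (f : Tor d M → ℂ) (x : Tor d M) : iF (fF f) x = f x := by
  unfold fF iF
  simp only [sum_mul, mul_assoc]
  rw [sum_comm]
  have : ∀ y : Tor d M, ∑ k, f y * (ch k (-y) * ch k x) =
      if y = x then f y * (vol d M : ℂ) else 0 := by
    intro y
    simp only [← ch_add, ← mul_sum, sum_ch, neg_add_eq_zero]
    split_ifs <;> simp
  simp only [this, sum_ite_eq', mem_univ, if_true]
  rw [mul_left_comm, inv_mul_cancel₀ vol_ne, mul_one]

/-- bilinear Parseval -/
lemma sum_iF_mul (F : Tor d M → ℂ) (g : Tor d M → ℂ) :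
    ∑ x, iF F x * g x = ((vol d M : ℝ) : ℂ)⁻¹ * ∑ k, F k * fF g (-k) := by
  unfold iF fF
  simp only [mul_assoc, ← mul_sum, sum_mul]
  congr 1
  rw [sum_comm]
  refine sum_congr rfl fun k _ => ?_
  rw [mul_sum]
  refine sum_congr rfl fun x _ => ?_
  rw [ch_neg_neg, neg_neg]; ring

lemma fF_conj (g : Tor d M → ℂ) (k : Tor d M) :
    fF (fun x => conj (g x)) (-k) = conj (fF g k) := by
  unfold fF
  simp only [map_sum, map_mul, conj_ch, ch_neg_neg]

lemma parseval' (F G : Tor d M → ℂ) :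
    ∑ x, iF F x * conj (iF G x) = ((vol d M : ℝ) : ℂ)⁻¹ * ∑ k, F k * conj (G k) := by
  rw [sum_iF_mul]
  simp only [fF_conj, fF_iF]

lemma parseval (F : Tor d M → ℂ) : ∑ x, ‖iF F x‖ ^ 2 = av fun k => ‖F k‖ ^ 2 := by
  have := parseval' F F
  simp only [Complex.mul_conj, Complex.normSq_eq_norm_sq] at this
  unfold av
  exact_mod_cast this

lemma parseval_fF (f : Tor d M → ℂ) : ∑ x, ‖f x‖ ^ 2 = av fun k => ‖fF f k‖ ^ 2 := by
  rw [← parseval]; simp only [iF_fF]

lemma iF_add (F G : Tor d M → ℂ) (x : Tor d M) :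
    iF (fun k => F k + G k) x = iF F x + iF G x := by
  simp only [iF, add_mul, sum_add_distrib, mul_add]

lemma iF_sub (F G : Tor d M → ℂ) (x : Tor d M) :
    iF (fun k => F k - G k) x = iF F x - iF G x := by
  simp only [iF, sub_mul, sum_sub_distrib, mul_sub]

lemma iF_mul_ch (F : Tor d M → ℂ) (p x : Tor d M) :
    iF F x * ch p x = iF (fun k => F (k - p)) x := by
  unfold iF
  rw [mul_assoc, sum_mul]
  congr 1
  rw [← Equiv.sum_comp (Equiv.addRight p) (fun k => F (k - p) * ch k x)]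
  refine sum_congr rfl fun k _ => ?_
  simp [ch_add', mul_assoc]

lemma iF_shift (F : Tor d M → ℂ) (u x : Tor d M) :
    iF F (x + u) = iF (fun k => F k * ch k u) x := by
  unfold iF
  congr 1
  refine sum_congr rfl fun k _ => ?_
  rw [ch_add]; ring

lemma av_nonneg {F : Tor d M → ℝ} (h : ∀ k, 0 ≤ F k) : 0 ≤ av F :=
  mul_nonneg (inv_nonneg.2 vol_pos.le) (sum_nonneg fun k _ => h k)

lemma av_mono {F G : Tor d M → ℝ} (h : ∀ k, F k ≤ G k) : av F ≤ av G :=
  mul_le_mul_of_nonneg_left (sum_le_sum fun k _ => h k) (inv_nonneg.2 vol_pos.le)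

lemma av_const (c : ℝ) : av (fun _ : Tor d M => c) = c := by
  unfold av
  rw [sum_const, card_univ, nsmul_eq_mul, card_tor]
  field_simp [(vol_pos (d := d) (M := M)).ne']

lemma av_add (F G : Tor d M → ℝ) : av (fun k => F k + G k) = av F + av G := by
  simp only [av, sum_add_distrib, mul_add]

lemma av_mul (c : ℝ) (F : Tor d M → ℝ) : av (fun k => c * F k) = c * av F := by
  simp only [av, ← mul_sum]; ring

lemma av_equiv (e : Tor d M ≃ Tor d M) (F : Tor d M → ℝ) : av (fun k => F (e k)) = av F := by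
  simp only [av, Equiv.sum_comp e F]

lemma norm_iF_le (F : Tor d M → ℂ) (x : Tor d M) : ‖iF F x‖ ≤ av fun k => ‖F k‖ := by
  unfold iF av
  rw [norm_mul, norm_inv, Complex.norm_real, Real.norm_of_nonneg vol_pos.le]
  refine mul_le_mul_of_nonneg_left ((norm_sum_le _ _).trans (le_of_eq ?_)) (inv_nonneg.2 vol_pos.le)
  simp

lemma norm_iF_le_of {F : Tor d M → ℂ} {c : ℝ} (h : ∀ k, ‖F k‖ ≤ c) (x : Tor d M) :
    ‖iF F x‖ ≤ c :=
  (norm_iF_le F x).trans ((av_mono h).trans (av_const c).le)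

/-! ### angles and the dispersion relation -/

/-- the angle in `(-π, π]` of a residue -/
noncomputable def ang (a : ZMod M) : ℝ := 2 * Real.pi * a.valMinAbs / M

lemma std_mul_int (a : ZMod M) (n : ℤ) :
    (ZMod.stdAddChar (a * (n : ZMod M)) : ℂ) = exp (((n * ang a : ℝ) : ℂ) * I) := by
  have : a * (n : ZMod M) = ((a.valMinAbs * n : ℤ) : ZMod M) := by simp
  rw [this, ZMod.stdAddChar_coe]
  congr 1
  simp only [ang]
  push_cast
  ring

lemma std_eq (a : ZMod M) : (ZMod.stdAddChar a : ℂ) = exp (((ang a : ℝ) : ℂ) * I) := by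
  simpa using std_mul_int a 1

lemma std_add_neg (a : ZMod M) :
    (ZMod.stdAddChar a : ℂ) + ZMod.stdAddChar (-a) = ((2 * Real.cos (ang a) : ℝ) : ℂ) := by
  have h := std_mul_int a (-1)
  simp only [Int.cast_neg, Int.cast_one, mul_neg, mul_one, neg_mul, one_mul] at h
  rw [h, std_eq]
  push_cast
  rw [Complex.two_cos]

lemma cos_ang_int (n : ℤ) : Real.cos (ang (n : ZMod M)) = Real.cos (2 * Real.pi * n / M) := by
  have h1 := std_eq (n : ZMod M)
  rw [ZMod.stdAddChar_coe] at h1
  have h2 : (2 * Real.pi * I * n / M : ℂ) = ((2 * Real.pi * n / M : ℝ) : ℂ) * I := by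
    push_cast; ring
  rw [h2] at h1
  have := congrArg Complex.re h1
  simpa only [Complex.exp_ofReal_mul_I_re] using this.symm

lemma sin_ang_int (n : ℤ) : Real.sin (ang (n : ZMod M)) = Real.sin (2 * Real.pi * n / M) := by
  have h1 := std_eq (n : ZMod M)
  rw [ZMod.stdAddChar_coe] at h1
  have h2 : (2 * Real.pi * I * n / M : ℂ) = ((2 * Real.pi * n / M : ℝ) : ℂ) * I := by
    push_cast; ring
  rw [h2] at h1
  have := congrArg Complex.im h1
  simpa only [Complex.exp_ofReal_mul_I_im] using this.symm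

lemma cos_ang_sub (a b : ZMod M) : Real.cos (ang (a - b)) = Real.cos (ang a - ang b) := by
  have : a - b = ((a.valMinAbs - b.valMinAbs : ℤ) : ZMod M) := by simp
  rw [this, cos_ang_int]
  congr 1
  simp only [ang]; push_cast; ring

lemma cos_ang_neg (a : ZMod M) : Real.cos (ang (-a)) = Real.cos (ang a) := by
  have := cos_ang_sub (0 : ZMod M) a
  simpa [ang] using this

lemma abs_ang_le (a : ZMod M) : |ang a| ≤ Real.pi := by
  have hM : (0 : ℝ) < M := Nat.cast_pos.2 (NeZero.pos M)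
  have h := ZMod.valMinAbs_mem_Ioc a
  have h1 : (-(M : ℝ)) ≤ a.valMinAbs * 2 := by exact_mod_cast h.1.le
  have h2 : (a.valMinAbs : ℝ) * 2 ≤ M := by exact_mod_cast h.2
  unfold ang
  rw [abs_le, le_div_iff₀ hM, div_le_iff₀ hM]
  constructor <;> nlinarith [Real.pi_pos]

/-- the dispersion relation of `-adjacency` -/
noncomputable def eps (k : Tor d M) : ℝ := -∑ j, 2 * Real.cos (ang (k j))

lemma ch_single (k : Tor d M) (j : Fin d) (a : ZMod M) :
    ch k (Pi.single j a) = ZMod.stdAddChar (k j * a) := by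
  unfold ch
  congr 1
  rw [sum_eq_single j] <;> simp +contextual

lemma eps_eq (k : Tor d M) :
    ((eps k : ℝ) : ℂ) = -∑ j, (ch k (Pi.single j 1) + ch k (-Pi.single j 1)) := by
  unfold eps
  push_cast
  congr 1
  refine sum_congr rfl fun j _ => ?_
  rw [← Pi.single_neg, ch_single, ch_single, mul_one, mul_neg, mul_one, std_add_neg]
  push_cast; rfl

lemma eps_neg (k : Tor d M) : eps (-k) = eps k := by
  simp only [eps, Pi.neg_apply, cos_ang_neg]

/-- the symbol of the free resolvent -/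
noncomputable def Gh (z : ℂ) (k : Tor d M) : ℂ := ((eps k : ℂ) - z)⁻¹

/-- the free resolvent kernel `(-adj - z)⁻¹ (x, 0)` -/
noncomputable def G0 (z : ℂ) (x : Tor d M) : ℂ := iF (Gh z) x

lemma eps_sub_ne {z : ℂ} (hz : 0 < z.im) (k : Tor d M) : (eps k : ℂ) - z ≠ 0 := by
  intro h
  have := congrArg Complex.im h
  simp at this
  linarith

lemma G0_neg (z : ℂ) (x : Tor d M) : G0 z (-x) = G0 z x := by
  unfold G0 iF
  congr 1
  rw [← Equiv.sum_comp (Equiv.neg _) (fun k => Gh z k * ch k x)]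
  refine sum_congr rfl fun k _ => ?_
  simp [Gh, eps_neg, ch_neg_neg]

/-- the resolvent equation -/
lemma G0_eq {z : ℂ} (hz : 0 < z.im) (x : Tor d M) :
    -(∑ j, (G0 z (x + Pi.single j 1) + G0 z (x - Pi.single j 1))) - z * G0 z x =
      if x = 0 then 1 else 0 := by
  have h1 : -(∑ j, (G0 z (x + Pi.single j 1) + G0 z (x - Pi.single j 1))) - z * G0 z x =
      iF (fun _ => 1) x := by
    simp only [G0, sub_eq_add_neg x, iF_shift]
    unfold iF
    simp only [← mul_add, ← sum_add_distrib]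
    rw [← mul_sum, ← mul_neg, mul_left_comm z, ← mul_sub]
    congr 1
    rw [sum_comm, ← sum_neg_distrib, mul_sum, ← sum_sub_distrib]
    refine sum_congr rfl fun k _ => ?_
    have h2 : Gh z k * ((eps k : ℂ) - z) = 1 := inv_mul_cancel₀ (eps_sub_ne hz k)
    have h3 : ∑ j, (Gh z k * ch k (Pi.single j 1) * ch k x + Gh z k * ch k (-Pi.single j 1) * ch k x)
        = Gh z k * (-(eps k : ℂ)) * ch k x := by
      rw [eps_eq, neg_neg, mul_sum, sum_mul]
      exact sum_congr rfl fun j _ => by ring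
    rw [h3]; linear_combination ch k x * h2
  rw [h1]
  unfold iF
  simp only [one_mul, sum_ch]
  split_ifs
  · exact inv_mul_cancel₀ vol_ne
  · simp

lemma normSq_Gh (z : ℂ) (k : Tor d M) :
    ‖Gh z k‖ ^ 2 = ((eps k - z.re) ^ 2 + z.im ^ 2)⁻¹ := by
  rw [Gh, norm_inv, inv_pow, Complex.sq_norm, Complex.normSq_apply]
  simp; ring_nf

lemma im_Gh (z : ℂ) (k : Tor d M) : (Gh z k).im = z.im * ‖Gh z k‖ ^ 2 := by
  rw [Gh, Complex.inv_im, norm_inv, inv_pow, Complex.sq_norm]
  simp [div_eq_mul_inv]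

lemma norm_Gh_le {z : ℂ} (hz : 0 < z.im) (k : Tor d M) : ‖Gh z k‖ ≤ z.im⁻¹ := by
  rw [Gh, norm_inv]
  refine inv_anti₀ hz ?_
  have := Complex.abs_im_le_norm ((eps k : ℂ) - z)
  simp only [sub_im, ofReal_im, zero_sub, abs_neg] at this
  exact (le_abs_self _).trans this

lemma im_G0_zero (z : ℂ) : (G0 z (0 : Tor d M)).im = av fun k : Tor d M => (Gh z k).im := by
  unfold G0 iF av
  rw [← Complex.ofReal_inv, Complex.im_ofReal_mul]
  simp [Complex.im_sum]

/-- Ward identity -/
lemma ward (z : ℂ) : z.im * ∑ x : Tor d M, ‖G0 z x‖ ^ 2 = (G0 z (0 : Tor d M)).im := by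
  rw [im_G0_zero]
  simp only [G0, parseval, im_Gh, av_mul]

lemma im_G0_nonneg {z : ℂ} (hz : 0 < z.im) : 0 ≤ (G0 z (0 : Tor d M)).im := by
  rw [← ward]; positivity

end Crest.Agent.N334.AC.I
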