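import Crest.Agent.N334.AC.I.CT
import Crest.Agent.R138.ExVdc_774

/-!
# Row 334, S0520, part I (helper24): one-dimensional oscillatory sums
-/

set_option autoImplicit false
set_option linter.unusedSectionVars false

open Finset Complex MeasureTheory

namespace Crest.Agent.N334.AC.I

open Crest.Agent.R138.Ex774

lemma norm_exp_sub_le (a b : ℝ) : ‖exp ((a : ℂ) * I) - exp ((b : ℂ) * I)‖ ≤ |a - b| := by
  have h : exp ((a : ℂ) * I) - exp ((b : ℂ) * I) =
      exp ((b : ℂ) * I) * (exp (I * ((a - b : ℝ) : ℂ)) - 1) := by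
    rw [mul_sub, ← Complex.exp_add]; push_cast; ring_nf
  rw [h, norm_mul, Complex.norm_exp_ofReal_mul_I, one_mul]
  exact Real.norm_exp_I_mul_ofReal_sub_one_le

lemma osc_int {a b lam : ℝ} (hab : a ≤ b) (hl : 0 < lam) {φ φ1 φ2 : ℝ → ℝ}
    (h1 : ∀ x, HasDerivAt φ (φ1 x) x) (h2 : ∀ x, HasDerivAt φ1 (φ2 x) x) (h2c : Continuous φ2)
    (hs : ∀ x ∈ Set.Icc a b, φ2 x ≤ -lam) :
    ‖∫ x in a..b, exp ((φ x : ℂ) * I)‖ ≤ 3 * (10 + 2 * (b - a)) / √lam := by
  have hpi := Real.pi_pos
  have key := vdc2 (a := a) (b := b) hab (θ := fun x => φ x / (2 * Real.pi))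
    (θ1 := fun x => φ1 x / (2 * Real.pi)) (θ2 := fun x => φ2 x / (2 * Real.pi))
    (ψ := fun _ => 1) (ψ1 := fun _ => 0) (M := 1) (lam := lam / (2 * Real.pi)) (by positivity)
    (fun x _ => (h1 x).div_const _) (fun x _ => (h2 x).div_const _)
    (h2c.div_const _).continuousOn (fun x _ => hasDerivAt_const x _) continuousOn_const
    (fun x _ => by simp) (fun x _ => by simp)
    (Or.inr fun x hx => by
      rw [← neg_div]; exact div_le_div_of_nonneg_right (hs x hx) (by positivity))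
  have e : ∀ x, (1 : ℂ) * ec (φ x / (2 * Real.pi)) = exp ((φ x : ℂ) * I) := by
    intro x
    rw [one_mul, ec]
    congr 2
    have : (Real.pi : ℂ) ≠ 0 := by exact_mod_cast hpi.ne'
    push_cast; field_simp
  simp only [e] at key
  refine key.trans ?_
  have hs1 : 0 < √lam := Real.sqrt_pos.2 hl
  have hs2 : √lam / 3 ≤ √(lam / (2 * Real.pi)) := by
    apply Real.le_sqrt_of_sq_le
    rw [div_pow, Real.sq_sqrt hl.le]
    apply div_le_div_of_nonneg_left hl.le (by positivity)
    linarith [Real.pi_le_four]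
  have h0 : 0 ≤ 10 + 2 * (b - a) := by linarith
  calc 1 * (10 + 2 * (b - a)) / √(lam / (2 * Real.pi))
      ≤ 1 * (10 + 2 * (b - a)) / (√lam / 3) :=
        div_le_div_of_nonneg_left (by linarith) (by positivity) hs2
    _ = _ := by field_simp

/-- Riemann sums of an oscillatory integral with a non-degenerate phase -/
lemma osc_sum {a h lam L : ℝ} (n : ℕ) (hh : 0 < h) (hl : 0 < lam) {φ φ1 φ2 : ℝ → ℝ}
    (h1 : ∀ x, HasDerivAt φ (φ1 x) x) (h2 : ∀ x, HasDerivAt φ1 (φ2 x) x) (h2c : Continuous φ2)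
    (hs : ∀ x ∈ Set.Icc a (a + n * h), φ2 x ≤ -lam)
    (hL : ∀ x y, |φ x - φ y| ≤ L * |x - y|) :
    ‖∑ k ∈ range n, (h : ℂ) * exp ((φ (a + k * h) : ℂ) * I)‖ ≤
      3 * (10 + 2 * (n * h)) / √lam + L * h * (n * h) := by
  have hL0 : 0 ≤ L := by
    have := (abs_nonneg _).trans (hL 1 0)
    simpa using this
  have hc : Continuous fun x => exp ((φ x : ℂ) * I) := by
    have : Continuous φ := continuous_iff_continuousAt.2 fun x => (h1 x).continuousAt
    fun_prop
  have hI := osc_int (a := a) (b := a + n * h) (by nlinarith [Nat.cast_nonneg (α := ℝ) n]) hl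
    h1 h2 h2c hs
  rw [add_sub_cancel_left] at hI
  have hsum := intervalIntegral.sum_integral_adjacent_intervals (μ := volume)
    (f := fun x => exp ((φ x : ℂ) * I)) (a := fun k : ℕ => a + k * h) (n := n)
    (fun k _ => hc.intervalIntegrable _ _)
  simp only [Nat.cast_zero, zero_mul, add_zero] at hsum
  have herr : ∀ k : ℕ, ‖(h : ℂ) * exp ((φ (a + k * h) : ℂ) * I) -
      ∫ x in (a + k * h)..(a + (k + 1 : ℕ) * h), exp ((φ x : ℂ) * I)‖ ≤ L * h * h := by
    intro k
    have e1 : (h : ℂ) * exp ((φ (a + k * h) : ℂ) * I) =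
        ∫ x in (a + k * h)..(a + (k + 1 : ℕ) * h), exp ((φ (a + k * h) : ℂ) * I) := by
      rw [intervalIntegral.integral_const]
      push_cast
      rw [Complex.real_smul]; congr 1; push_cast; ring
    rw [e1, ← intervalIntegral.integral_sub (by simp) (hc.intervalIntegrable _ _)]
    have e2 : |a + (k + 1 : ℕ) * h - (a + k * h)| = h := by
      push_cast; rw [show a + (k + 1) * h - (a + k * h) = h by ring, abs_of_pos hh]
    refine (intervalIntegral.norm_integral_le_of_norm_le_const (C := L * h) ?_).trans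
      (by rw [e2])
    intro x hx
    rw [Set.uIoc_of_le (by push_cast; linarith)] at hx
    refine (norm_exp_sub_le _ _).trans ((hL _ _).trans ?_)
    refine mul_le_mul_of_nonneg_left ?_ hL0
    have := hx.1; have := hx.2
    push_cast at *
    rw [abs_le]; constructor <;> linarith
  have e3 : ∑ k ∈ range n, (h : ℂ) * exp ((φ (a + k * h) : ℂ) * I) =
      (∫ x in a..(a + n * h), exp ((φ x : ℂ) * I)) +
      ∑ k ∈ range n, ((h : ℂ) * exp ((φ (a + k * h) : ℂ) * I) -
        ∫ x in (a + k * h)..(a + (k + 1 : ℕ) * h), exp ((φ x : ℂ) * I)) := by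
    rw [sum_sub_distrib, hsum]; ring
  rw [e3]
  refine (norm_add_le _ _).trans (add_le_add hI ((norm_sum_le _ _).trans ?_))
  refine (sum_le_sum fun k _ => herr k).trans (le_of_eq ?_)
  simp; ring

variable {M : ℕ} [NeZero M]

/-- sums over an interval of residues -/
lemma sum_window {β : Type*} [AddCommMonoid β] (lo : ℤ) (n : ℕ) (h1 : -(M : ℤ) < lo * 2)
    (h2 : (lo + n) * 2 ≤ M) (f : ℤ → β) :
    ∑ a : ZMod M, (if lo ≤ a.valMinAbs ∧ a.valMinAbs < lo + n then f a.valMinAbs else 0) =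
      ∑ k ∈ range n, f (lo + k) := by
  rw [← sum_filter]
  symm
  have hv : ∀ k ∈ range n, (((lo + k : ℤ) : ZMod M)).valMinAbs = lo + k := by
    intro k hk
    rw [mem_range] at hk
    rw [ZMod.valMinAbs_spec]
    exact ⟨rfl, by constructor <;> omega⟩
  refine sum_bij (fun k _ => ((lo + k : ℤ) : ZMod M)) ?_ ?_ ?_ ?_
  · intro k hk
    rw [mem_filter, hv k hk]
    rw [mem_range] at hk
    exact ⟨mem_univ _, by omega, by omega⟩
  · intro k hk l hl h
    have := congrArg ZMod.valMinAbs h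
    rw [hv k hk, hv l hl] at this
    omega
  · intro a ha
    rw [mem_filter] at ha
    refine ⟨(a.valMinAbs - lo).toNat, mem_range.2 (by omega), ?_⟩
    rw [Int.toNat_of_nonneg (by omega)]
    simp
  · intro k hk
    rw [hv k hk]

/-- the inner region of one coordinate -/
def inn (a : ZMod M) : Prop := a.valMinAbs.natAbs ≤ M / 8

instance : DecidablePred (inn (M := M)) := fun a => by unfold inn; infer_instance

lemma cos_le_of_not_inn {a : ZMod M} (h : ¬ inn a) : Real.cos (ang a) ≤ 3 / 4 := by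
  have hM : (0 : ℝ) < M := Nat.cast_pos.2 (NeZero.pos M)
  have h1 : (M : ℤ) ≤ 8 * |a.valMinAbs| := by unfold inn at h; rw [Int.abs_eq_natAbs]; omega
  have h2 : (M : ℝ) ≤ 8 * |(a.valMinAbs : ℝ)| := by exact_mod_cast h1
  have h3 : Real.pi / 4 ≤ |ang a| := by
    unfold ang
    rw [abs_div, abs_mul, abs_of_pos (by positivity : 0 < 2 * Real.pi), abs_of_pos hM,
      le_div_iff₀ hM]
    nlinarith [Real.pi_pos]
  rw [← Real.cos_abs]
  refine (Real.cos_le_cos_of_nonneg_of_le_pi (by positivity) (abs_ang_le a) h3).trans ?_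
  rw [Real.cos_pi_div_four]
  have : √2 ≤ 3 / 2 := by
    apply Real.sqrt_le_iff.2; norm_num
  linarith

lemma half_le_cos {x : ℝ} (h : |x| ≤ 1) : 1 / 2 ≤ Real.cos x := by
  have := Real.one_sub_sq_div_two_le_cos (x := x)
  have h2 : x ^ 2 ≤ 1 := by rw [← sq_abs]; nlinarith [abs_nonneg x]
  linarith

/-- the two-time kernel of one coordinate -/
noncomputable def ker2 (t s : ℝ) (p y : ZMod M) : ℂ :=
  (M : ℂ)⁻¹ * ∑ a : ZMod M, if inn a ∧ (s = 0 ∨ inn (a - p)) then
    exp (((2 * t * Real.cos (ang a) + 2 * s * Real.cos (ang (a - p)) : ℝ) : ℂ) * I) *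
      ZMod.stdAddChar (a * y) else 0

lemma norm_ker2_le_one (t s : ℝ) (p y : ZMod M) : ‖ker2 t s p y‖ ≤ 1 := by
  have hM : (0 : ℝ) < M := Nat.cast_pos.2 (NeZero.pos M)
  unfold ker2
  rw [norm_mul, norm_inv, Complex.norm_natCast, inv_mul_le_iff₀ hM, mul_one]
  refine (norm_sum_le _ _).trans ((sum_le_sum (g := fun _ => (1 : ℝ)) fun a _ => ?_).trans ?_)
  · split_ifs
    · rw [norm_mul, Complex.norm_exp_ofReal_mul_I, norm_std, one_mul]
    · simp
  · simp [ZMod.card]

lemma norm_ker2_le (hM : 32 ≤ M) {t s : ℝ} (ht : 0 ≤ t) (hs : 0 ≤ s) (hts : 0 < t + s)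
    (p y : ZMod M) :
    ‖ker2 t s p y‖ ≤ 8 / √(t + s) + 4 * (t + s + y.valMinAbs.natAbs) / M := by
  have hM0 : (0 : ℝ) < M := Nat.cast_pos.2 (NeZero.pos M)
  have hM' : (32 : ℝ) ≤ M := by exact_mod_cast hM
  have hpi := Real.pi_pos
  have hpi4 := Real.pi_lt_d2
  -- the window
  obtain ⟨m0, hm0⟩ : ∃ m0 : ℤ, m0 = ((M / 8 : ℕ) : ℤ) := ⟨_, rfl⟩
  obtain ⟨P, hP⟩ : ∃ P : ℤ, P = if s = 0 then 0 else p.valMinAbs := ⟨_, rfl⟩
  obtain ⟨lo, hlo⟩ : ∃ lo : ℤ, lo = max (-m0) (P - m0) := ⟨_, rfl⟩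
  obtain ⟨n, hn⟩ : ∃ n : ℕ, n = (min m0 (P + m0) + 1 - lo).toNat := ⟨_, rfl⟩
  have hwin : ∀ a : ZMod M, (inn a ∧ (s = 0 ∨ inn (a - p))) ↔
      (lo ≤ a.valMinAbs ∧ a.valMinAbs < lo + n) := by
    intro a
    by_cases h0 : s = 0
    · simp only [h0, true_or, and_true, inn]
      simp only [hP, h0, if_true] at hlo hn
      omega
    · simp only [h0, false_or, inn]
      simp only [hP, h0, if_false] at hlo hn
      constructor
      · rintro ⟨h1, h2⟩
        have e : p.valMinAbs = a.valMinAbs - (a - p).valMinAbs := by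
          rw [ZMod.valMinAbs_spec]
          exact ⟨by simp, by constructor <;> omega⟩
        omega
      · rintro ⟨h1, h2⟩
        have e : (a - p).valMinAbs = a.valMinAbs - p.valMinAbs := by
          rw [ZMod.valMinAbs_spec]
          exact ⟨by simp, by constructor <;> omega⟩
        omega
  set h : ℝ := 2 * Real.pi / M with hh
  have hh0 : 0 < h := by positivity
  set q : ℝ := P * h with hq
  set N : ℤ := y.valMinAbs with hN
  let φ : ℝ → ℝ := fun x => 2 * t * Real.cos x + 2 * s * Real.cos (x - q) + N * x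
  have hang : ∀ a : ZMod M, ang a = a.valMinAbs * h := by
    intro a; simp only [ang, hh]; ring
  have hterm : ∀ a : ZMod M,
      exp (((2 * t * Real.cos (ang a) + 2 * s * Real.cos (ang (a - p)) : ℝ) : ℂ) * I) *
      ZMod.stdAddChar (a * y) = exp ((φ (a.valMinAbs * h) : ℂ) * I) := by
    intro a
    have e1 : y = (N : ZMod M) := by simp [hN]
    have e2 : s * Real.cos (ang (a - p)) = s * Real.cos (a.valMinAbs * h - q) := by
      by_cases h0 : s = 0
      · simp [h0]
      · rw [cos_ang_sub, hang, hang]; simp [hq, hP, h0]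
    conv_lhs => rw [e1, std_mul_int, ← Complex.exp_add, mul_assoc 2 s, e2, hang]
    congr 1
    simp only [φ]; push_cast; ring
  rcases Nat.eq_zero_or_pos n with hn0 | hn0
  · have : ker2 t s p y = 0 := by
      unfold ker2
      rw [sum_eq_zero, mul_zero]
      intro a _
      rw [if_neg]; rw [hwin]; omega
    rw [this, norm_zero]; positivity
  have hker : ker2 t s p y = ((2 * Real.pi : ℝ) : ℂ)⁻¹ *
      ∑ k ∈ range n, (h : ℂ) * exp ((φ (lo * h + k * h) : ℂ) * I) := by
    unfold ker2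
    simp only [hwin, hterm]
    rw [sum_window lo n (by omega) (by omega) (fun m => exp ((φ (m * h) : ℂ) * I)), ← mul_sum,
      ← mul_assoc]
    congr 1
    · have : (Real.pi : ℂ) ≠ 0 := by exact_mod_cast hpi.ne'
      simp only [hh]; push_cast; field_simp
    · refine sum_congr rfl fun k _ => ?_
      push_cast; rw [add_mul]
  have hm0h : (m0 + 1) * h ≤ 1 := by
    have e : ((m0 : ℝ)) * 8 ≤ M := by exact_mod_cast (by omega : m0 * 8 ≤ M)
    rw [hh, ← mul_div_assoc, div_le_one hM0]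
    nlinarith
  have hlo1 : -(m0 : ℝ) ≤ lo := by exact_mod_cast (by omega : -m0 ≤ lo)
  have hlo2 : (P : ℝ) - m0 ≤ lo := by exact_mod_cast (by omega : P - m0 ≤ lo)
  have hhi1 : (lo : ℝ) + n ≤ m0 + 1 := by exact_mod_cast (by omega : lo + n ≤ m0 + 1)
  have hhi2 : (lo : ℝ) + n ≤ P + m0 + 1 := by exact_mod_cast (by omega : lo + n ≤ P + m0 + 1)
  have hnh : n * h ≤ 2 := by nlinarith
  have hb := osc_sum (a := lo * h) (h := h) (lam := t + s) (L := 2 * t + 2 * s + |(N : ℝ)|) n hh0 hts
    (φ := φ) (φ1 := fun x => 2 * t * -Real.sin x + 2 * s * -Real.sin (x - q) + N)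
    (φ2 := fun x => 2 * t * -Real.cos x + 2 * s * -Real.cos (x - q))
    (fun x => by
      have a1 := (Real.hasDerivAt_cos x).const_mul (2 * t)
      have a2 := (((hasDerivAt_id x).sub_const q).cos).const_mul (2 * s)
      have a3 := (hasDerivAt_id x).const_mul (N : ℝ)
      exact ((a1.add a2).add a3).congr_deriv (by simp))
    (fun x => by
      have a1 := (Real.hasDerivAt_sin x).neg.const_mul (2 * t)
      have a2 := (((hasDerivAt_id x).sub_const q).sin).neg.const_mul (2 * s)
      simpa using (a1.add a2).add_const (N : ℝ))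
    (by fun_prop)
    (fun x hx => by
      have c1 : 1 / 2 ≤ Real.cos x := half_le_cos (by
        rw [abs_le]; constructor <;> nlinarith [hx.1, hx.2])
      have c2 : 1 / 2 ≤ Real.cos (x - q) := half_le_cos (by
        rw [abs_le, hq]; constructor <;> nlinarith [hx.1, hx.2])
      nlinarith)
    (fun x y => by
      have c1 := Real.abs_cos_sub_cos_le x y
      have c2 := Real.abs_cos_sub_cos_le (x - q) (y - q)
      rw [sub_sub_sub_cancel_right] at c2
      have e : φ x - φ y = 2 * t * (Real.cos x - Real.cos y) +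
          2 * s * (Real.cos (x - q) - Real.cos (y - q)) + N * (x - y) := by simp only [φ]; ring
      rw [e]
      refine (abs_add_three _ _ _).trans ?_
      simp only [abs_mul, abs_of_nonneg ht, abs_of_nonneg hs, abs_two]
      nlinarith)
  rw [hker, norm_mul, norm_inv, Complex.norm_real, Real.norm_of_nonneg (by positivity),
    inv_mul_le_iff₀ (by positivity)]
  refine hb.trans ?_
  have hsq : 0 < √(t + s) := Real.sqrt_pos.2 hts
  have e4 : (y.valMinAbs.natAbs : ℝ) = |(N : ℝ)| := by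
    rw [hN, ← Int.cast_abs, Int.abs_eq_natAbs, Int.cast_natCast]
  rw [e4, mul_add (2 * Real.pi)]
  have hN0 := abs_nonneg (N : ℝ)
  apply add_le_add
  · rw [← mul_div_assoc (2 * Real.pi) 8]
    apply div_le_div_of_nonneg_right _ hsq.le
    nlinarith [Real.pi_gt_three]
  · calc (2 * t + 2 * s + |(N : ℝ)|) * h * (n * h) ≤ (2 * t + 2 * s + |(N : ℝ)|) * h * 2 := by
          gcongr
      _ ≤ (4 * (t + s + |(N : ℝ)|)) * h := by nlinarith
      _ = _ := by rw [hh]; ring

end Crest.Agent.N334.AC.I
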