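import Crest.Agent.N334.AC.I.Step

/-!
# Row 334, S0520, part I: Poincaré inequalities for step distributions (helper6)
-/

set_option autoImplicit false
set_option linter.unusedSectionVars false

open Finset Complex

namespace Crest.Agent.N334.AC.I

variable {d M : ℕ} [NeZero M]

lemma abs_vma_le (u : Tor d M) (j : Fin d) : |((u j).valMinAbs : ℝ)| ≤ nrm u := by
  rw [← Int.cast_abs, Int.abs_eq_natAbs]
  exact_mod_cast le_nrm u j

lemma norm_ch_sub_one_le (p u : Tor d M) :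
    ‖ch p u - 1‖ ≤ 2 * Real.pi * d * (nrm p / M) * nrm u := by
  have hM : (0 : ℝ) < M := Nat.cast_pos.2 (NeZero.pos M)
  have h1 : ch p u = exp (((∑ j, (u j).valMinAbs * ang (p j) : ℝ) : ℂ) * I) := by
    rw [ch_eq_prod, ofReal_sum, sum_mul, Complex.exp_sum]
    exact prod_congr rfl fun j _ => by rw [← std_mul_int, ZMod.coe_valMinAbs]
  have h2 := norm_exp_sub_le (∑ j, (u j).valMinAbs * ang (p j)) 0
  rw [← h1, ofReal_zero, zero_mul, Complex.exp_zero, sub_zero] at h2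
  refine h2.trans ((abs_sum_le_sum_abs _ _).trans ((sum_le_card_nsmul _ _
    (nrm u * (2 * Real.pi * (nrm p / M))) fun j _ => ?_).trans_eq ?_))
  · rw [abs_mul, ang, mul_div_assoc, abs_mul, abs_div, abs_of_pos hM,
      abs_of_pos Real.two_pi_pos]
    gcongr <;> exact abs_vma_le _ j
  · rw [card_univ, Fintype.card_fin, nsmul_eq_mul]; ring

lemma normSq_ch_le {γ : ℝ} (hγ : 0 < γ) (p u : Tor d M) :
    ‖ch p u - 1‖ ^ 2 ≤ (4 + 64 * d ^ 2) * (1 + (γ * nrm u) ^ 2) * mm γ p := by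
  have hM : (0 : ℝ) < M := Nat.cast_pos.2 (NeZero.pos M)
  rw [mm, mul_min_of_nonneg _ _ (by positivity), le_min_iff]
  constructor
  · have h1 : (ch p u).re ≥ -1 := by
      have := (abs_le.1 (Complex.abs_re_le_norm (ch p u))).1
      rwa [norm_ch] at this
    rw [normSq_ch_sub_one]
    nlinarith [sq_nonneg (γ * nrm u), sq_nonneg (d : ℝ),
      mul_nonneg (sq_nonneg (d : ℝ)) (sq_nonneg (γ * nrm u))]
  · have h1 : ‖ch p u - 1‖ ≤ 8 * d * (γ * nrm u) * (nrm p / (γ * M)) :=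
      (norm_ch_sub_one_le p u).trans (by
        rw [show 8 * d * (γ * nrm u) * (nrm p / (γ * M)) = 2 * 4 * (d : ℝ) * (nrm p / M) * nrm u by
          field_simp; ring]
        gcongr
        exact Real.pi_le_four)
    refine (pow_le_pow_left₀ (norm_nonneg _) h1 2).trans ?_
    rw [mul_pow]
    gcongr
    nlinarith [sq_nonneg (γ * nrm u), sq_nonneg (d : ℝ)]

lemma Step.shift_le {π : Tor d M → ℝ} {γ c : ℝ} (h : Step π γ c) (ψ : Tor d M → ℝ) (u : Tor d M) :
    ∑ x, (ψ (x + u) - ψ x) ^ 2 ≤ (4 + 64 * d ^ 2) / c * (1 + (γ * nrm u) ^ 2) * Dir π ψ := by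
  have hc := h.c_pos
  rw [sum_shift_sq, Dir_eq h.sum_one, ← av_mul]
  refine av_mono fun p => ?_
  rw [← mul_assoc]
  refine mul_le_mul_of_nonneg_right ((normSq_ch_le h.γ_pos p u).trans ?_) (wt_nonneg _ _)
  refine le_trans (le_of_eq ?_) (mul_le_mul_of_nonneg_left (h.le_lam p) (by positivity))
  field_simp

lemma sum_pow_val_le {r : ℝ} (h0 : 0 ≤ r) (h1 : r < 1) : ∑ a : ZMod M, r ^ a.val ≤ (1 - r)⁻¹ := by
  rw [← tsum_geometric_of_lt_one h0 h1]
  refine le_of_eq_of_le ?_ ((summable_geometric_of_lt_one h0 h1).sum_le_tsum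
    (univ.map ⟨ZMod.val, ZMod.val_injective M⟩) fun n _ => by positivity)
  rw [sum_map]
  rfl

lemma sum_exp_line {s : ℝ} (h0 : 0 < s) (h1 : s ≤ 1) :
    ∑ a : ZMod M, Real.exp (-s) ^ a.valMinAbs.natAbs ≤ 4 / s := by
  have r0 := (Real.exp_pos (-s)).le
  have r1 : Real.exp (-s) ≤ 1 - s / 2 := by
    rw [Real.exp_neg, inv_le_iff_one_le_mul₀ (Real.exp_pos s)]
    nlinarith [Real.add_one_le_exp s]
  have h2 := sum_pow_val_le (M := M) r0 (by linarith)
  have h3 : (1 - Real.exp (-s))⁻¹ ≤ 2 / s := by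
    rw [← inv_div]
    exact inv_anti₀ (by positivity) (by linarith)
  have h4 : ∀ a : ZMod M, Real.exp (-s) ^ a.valMinAbs.natAbs ≤
      Real.exp (-s) ^ a.val + Real.exp (-s) ^ (-a).val := fun a => by
    rw [ZMod.valMinAbs_natAbs_eq_min, ZMod.neg_val]
    split_ifs with h
    · simp [h]
    · rcases min_choice a.val (M - a.val) with e | e <;> rw [e]
      · exact le_add_of_nonneg_right (by positivity)
      · exact le_add_of_nonneg_left (by positivity)
  refine (sum_le_sum fun a _ => h4 a).trans ?_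
  rw [sum_add_distrib, show ∑ a : ZMod M, Real.exp (-s) ^ (-a).val = _ from
    Equiv.sum_comp (Equiv.neg _) fun a : ZMod M => Real.exp (-s) ^ a.val,
    show 4 / s = 2 / s + 2 / s by ring]
  linarith

lemma sum_exp_nrm_le {θ : ℝ} (h0 : 0 < θ) (h1 : θ ≤ 1) :
    ∑ u : Tor d M, Real.exp (-θ * nrm u) ≤ (4 * (d + 1) / θ) ^ d := by
  have hd : (0 : ℝ) ≤ d := Nat.cast_nonneg d
  have s0 : 0 < θ / (d + 1) := by positivity
  have h2 := sum_exp_line (M := M) s0 ((div_le_one (by positivity)).2 (by linarith))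
  calc ∑ u : Tor d M, Real.exp (-θ * nrm u)
      ≤ ∑ u : Tor d M, ∏ j, Real.exp (-(θ / (d + 1))) ^ (u j).valMinAbs.natAbs := by
        refine sum_le_sum fun u _ => ?_
        rw [prod_pow_eq_pow_sum, ← Real.exp_nat_mul, Real.exp_le_exp]
        have h3 : ((∑ j, (u j).valMinAbs.natAbs : ℕ) : ℝ) ≤ (d + 1) * nrm u := by
          have := sum_le_card_nsmul univ _ _ fun j _ => le_nrm u j
          rw [card_univ, Fintype.card_fin, smul_eq_mul] at this
          exact_mod_cast this.trans (Nat.mul_le_mul_right _ (Nat.le_succ d))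
        have h4 := mul_le_mul_of_nonneg_right h3 s0.le
        rw [show (d + 1) * nrm u * (θ / (d + 1)) = θ * nrm u by field_simp] at h4
        linarith
    _ = (∑ a : ZMod M, Real.exp (-(θ / (d + 1))) ^ a.valMinAbs.natAbs) ^ d := by
        rw [← Fintype.piFinset_univ, ← Finset.prod_univ_sum (fun _ => univ)
          (fun (_ : Fin d) (a : ZMod M) => Real.exp (-(θ / (d + 1))) ^ a.valMinAbs.natAbs),
          prod_const, card_univ, Fintype.card_fin]
    _ ≤ _ := pow_le_pow_left₀ (sum_nonneg fun _ _ => by positivity) (h2.trans_eq (by field_simp)) d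

lemma sq_mul_exp_le {θ r : ℝ} (h0 : 0 < θ) (h1 : θ ≤ 1) (hr : 0 ≤ r) :
    Real.exp (-θ * r) * (1 + r ^ 2) ≤ 9 / θ ^ 2 * Real.exp (-(θ / 2) * r) := by
  have h2 := Real.quadratic_le_exp_of_nonneg (x := θ / 2 * r) (by positivity)
  have h3 : Real.exp (-(θ / 2) * r) = Real.exp (-θ * r) * Real.exp (θ / 2 * r) := by
    rw [← Real.exp_add]; congr 1; ring
  rw [h3, mul_left_comm]
  refine mul_le_mul_of_nonneg_left ?_ (Real.exp_pos _).le
  rw [div_mul_eq_mul_div, le_div_iff₀ (by positivity)]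
  nlinarith [mul_nonneg h0.le hr, sq_nonneg (θ * r)]

theorem poin : PoinStmt := by
  intro d c hc
  have hd : (0 : ℝ) ≤ d := Nat.cast_nonneg d
  have hK : 0 ≤ (4 + 64 * (d : ℝ) ^ 2) / c := by positivity
  set K := (4 + 64 * (d : ℝ) ^ 2) / c with hKd
  refine ⟨K + 8 * (d + 1), by linarith, fun M _ π γ h => ⟨fun ψ u => (h.shift_le ψ u).trans ?_,
    fun θ h0 h1 => (sum_exp_nrm_le h0 h1).trans ?_, fun θ h0 h1 ψ => ?_⟩⟩
  · have := h.Dir_nonneg ψ
    gcongr
    linarith
  · gcongr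
    linarith
  have hD := h.Dir_nonneg ψ
  have hγ := h.γ_pos
  rw [sum_sum_sub]
  simp only [tdist_eq, add_sub_cancel_left, ← mul_sum]
  calc ∑ u : Tor d M, Real.exp (-θ * nrm u) * ∑ x, (ψ (x + u) - ψ x) ^ 2
      ≤ ∑ u : Tor d M, K * (9 / θ ^ 2) * Dir π ψ * Real.exp (-(θ / 2) * nrm u) := by
        refine sum_le_sum fun u _ => ?_
        have h2 : ∑ x, (ψ (x + u) - ψ x) ^ 2 ≤ K * (1 + (nrm u : ℝ) ^ 2) * Dir π ψ :=
          (h.shift_le ψ u).trans (by
            gcongr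
            exact mul_le_of_le_one_left (Nat.cast_nonneg _) h.γ_le)
        have h3 := mul_le_mul_of_nonneg_left (sq_mul_exp_le h0 h1 (Nat.cast_nonneg (nrm u)))
          (mul_nonneg hK hD)
        nlinarith [mul_le_mul_of_nonneg_left h2 (Real.exp_pos (-θ * nrm u)).le]
    _ ≤ K * (9 / θ ^ 2) * Dir π ψ * (4 * (d + 1) / (θ / 2)) ^ d := by
        rw [← mul_sum]
        exact mul_le_mul_of_nonneg_left (sum_exp_nrm_le (half_pos h0) (by linarith))
          (by positivity)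
    _ ≤ (K + 8 * (d + 1)) / θ * ((K + 8 * (d + 1)) / θ) ^ 2 * Dir π ψ *
          ((K + 8 * (d + 1)) / θ) ^ d := by
        rw [show 4 * (d + 1) / (θ / 2) = 8 * (d + 1) / θ by field_simp; ring,
          show 9 / θ ^ 2 = (3 / θ) ^ 2 by rw [div_pow]; norm_num]
        gcongr
        · rw [le_div_iff₀ h0]; nlinarith
        · linarith
        · linarith
    _ = _ := by ring

end Crest.Agent.N334.AC.I
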