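import Crest.Agent.N334.AC.I.Disp

/-!
# Row 334, S0520, part I (helper24): the energy shell and the symbol of `|G0|²`
-/

set_option autoImplicit false
set_option linter.unusedSectionVars false

open Finset Complex
open scoped ComplexConjugate

namespace Crest.Agent.N334.AC.I

variable {d M : ℕ} [NeZero M]

lemma sum_update (f : Tor d M → ℝ) (j : Fin d) :
    ∑ k : Tor d M, ∑ a : ZMod M, f (Function.update k j a) = M * ∑ k, f k := by
  have h : ∑ k : Tor d M, ∑ a : ZMod M, f (Function.update k j a) =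
      ∑ k : Tor d M, ∑ _a : ZMod M, f k := by
    rw [← sum_product', ← sum_product']
    refine sum_nbij' (fun q => (Function.update q.1 j q.2, q.1 j))
      (fun q => (Function.update q.1 j q.2, q.1 j)) ?_ ?_ ?_ ?_ ?_ <;> simp
  rw [h]; simp [ZMod.card, mul_sum]

lemma eps_update (k : Tor d M) (j : Fin d) (a : ZMod M) :
    eps (Function.update k j a) = eps k + 2 * Real.cos (ang (k j)) - 2 * Real.cos (ang a) := by
  unfold eps
  rw [← add_sum_erase _ _ (mem_univ j), ← add_sum_erase _ (fun i => 2 * Real.cos (ang (k i)))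
    (mem_univ j)]
  have : ∑ i ∈ univ.erase j, 2 * Real.cos (ang (Function.update k j a i)) =
      ∑ i ∈ univ.erase j, 2 * Real.cos (ang (k i)) :=
    sum_congr rfl fun i hi => by rw [Function.update_of_ne (ne_of_mem_erase hi)]
  rw [this, Function.update_self]; ring

lemma card_box (m : ℕ) (hm : 2 * m + 2 ≤ M) :
    ∑ k : Tor d M, (if nrm k ≤ m then (1 : ℝ) else 0) = (2 * m + 1) ^ d := by
  have h1 : ∀ k : Tor d M, (if nrm k ≤ m then (1 : ℝ) else 0) =
      ∏ j, if -(m : ℤ) ≤ (k j).valMinAbs ∧ (k j).valMinAbs < -(m : ℤ) + (2 * m + 1 : ℕ) then 1 else 0 := by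
    intro k
    rw [prod_ite_zero, prod_const_one]
    congr 1
    rw [nrm_le, eq_iff_iff]
    exact ⟨fun h j _ => by have := h j; omega, fun h j => by have := h j (mem_univ j); omega⟩
  simp only [h1]
  rw [← Fintype.piFinset_univ, ← Finset.prod_univ_sum (fun _ => univ)
    (fun _ (a : ZMod M) => if -(m : ℤ) ≤ a.valMinAbs ∧ a.valMinAbs < -(m : ℤ) + (2 * m + 1 : ℕ)
      then (1 : ℝ) else 0)]
  rw [sum_window (-(m : ℤ)) (2 * m + 1) (by omega) (by omega) (fun _ => (1 : ℝ))]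
  simp

lemma abs_ang_eq (a : ZMod M) : |ang a| = 2 * Real.pi * a.valMinAbs.natAbs / M := by
  have hM : (0 : ℝ) < M := Nat.cast_pos.2 (NeZero.pos M)
  unfold ang
  rw [abs_div, abs_mul, abs_of_pos (by positivity : 0 < 2 * Real.pi), abs_of_pos hM,
    ← Int.cast_abs, Int.abs_eq_natAbs, Int.cast_natCast]

lemma eps_le_of_nrm (k : Tor d M) : eps k ≤ -2 * d + d * (2 * Real.pi * nrm k / M) ^ 2 := by
  have hM : (0 : ℝ) < M := Nat.cast_pos.2 (NeZero.pos M)
  have : ∑ _j : Fin d, (2 - (2 * Real.pi * nrm k / M) ^ 2) ≤ ∑ j, 2 * Real.cos (ang (k j)) := by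
    refine sum_le_sum fun j _ => ?_
    have h1 := Real.one_sub_sq_div_two_le_cos (x := ang (k j))
    have h2 : |ang (k j)| ≤ 2 * Real.pi * nrm k / M := by
      rw [abs_ang_eq]
      have : ((k j).valMinAbs.natAbs : ℝ) ≤ nrm k := by exact_mod_cast le_nrm k j
      gcongr
    have h3 : ang (k j) ^ 2 ≤ (2 * Real.pi * nrm k / M) ^ 2 := by
      rw [← sq_abs]; exact pow_le_pow_left₀ (abs_nonneg _) h2 2
    linarith
  simp only [sum_const, card_univ, Fintype.card_fin, nsmul_eq_mul] at this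
  unfold eps; linarith

/-- the part of the energy shell where the `j`-th velocity is bounded below -/
def Sh (c : ℝ) (z : ℂ) (j : Fin d) (k : Tor d M) : Prop :=
  |eps k - z.re| ≤ z.im ∧ c ≤ Real.sin (ang (k j))

noncomputable instance (c : ℝ) (z : ℂ) (j : Fin d) : DecidablePred (Sh (M := M) c z j) :=
  Classical.decPred _

lemma shell_line {b γ τ : ℝ} (hb : 0 < b) (hγ : 0 < γ) (hγb : γ ≤ b) (hb1 : b ≤ 1 / 2)
    (h1 : 2 * b ^ 2 ≤ τ) (h2 : τ ≤ 1 / 4) (hM : 26 / γ ≤ M) :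
    γ / 26 * M ≤ ∑ a : ZMod M, if |2 - 2 * Real.cos (ang a) - τ| ≤ γ ∧ b / 2 ≤ Real.sin (ang a)
      then (1 : ℝ) else 0 := by
  have hM0 : (0 : ℝ) < M := Nat.cast_pos.2 (NeZero.pos M)
  have hpi := Real.pi_gt_three
  have hpi' := Real.pi_lt_d2
  set q := Real.arccos (1 - τ / 2) with hq
  have hτ : 0 < τ := by nlinarith
  have hcq : Real.cos q = 1 - τ / 2 := Real.cos_arccos (by linarith) (by linarith)
  have hq0 : 0 ≤ q := Real.arccos_nonneg _
  have hqb : b ≤ q := by
    have := Real.one_sub_sq_div_two_le_cos (x := q)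
    nlinarith
  have hq1 : q ≤ 1 := by
    by_contra h
    have h3 := Real.cos_le_cos_of_nonneg_of_le_pi (x := 1) zero_le_one (Real.arccos_le_pi _)
      (not_le.1 h).le
    have := Real.cos_one_le
    linarith
  set h : ℝ := 2 * Real.pi / M with hh
  have hh0 : 0 < h := by positivity
  have hMh : (M : ℝ) * h = 2 * Real.pi := by rw [hh]; field_simp
  have hγM : 26 ≤ γ * M := by rw [div_le_iff₀ hγ] at hM; linarith
  have hhγ : 4 * h ≤ γ := by
    rw [hh, ← mul_div_assoc, div_le_iff₀ hM0]; linarith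
  obtain ⟨lo, hlo1, hlo2⟩ : ∃ lo : ℤ, q / h ≤ lo ∧ (lo : ℝ) < q / h + 1 :=
    ⟨⌈q / h⌉, Int.le_ceil _, Int.ceil_lt_add_one _⟩
  obtain ⟨n, hn1, hn2⟩ : ∃ n : ℕ, (n : ℝ) ≤ γ / (2 * h) ∧ γ / (2 * h) < n + 1 :=
    ⟨⌊γ / (2 * h)⌋₊, Nat.floor_le (by positivity), Nat.lt_floor_add_one _⟩
  rw [div_le_iff₀ hh0] at hlo1
  have hlo3 : lo * h < q + h := by
    have := mul_lt_mul_of_pos_right hlo2 hh0
    rwa [add_mul, div_mul_cancel₀ _ hh0.ne', one_mul] at this
  rw [le_div_iff₀ (by positivity)] at hn1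
  rw [div_lt_iff₀ (by positivity)] at hn2
  have hlo0 : (0 : ℝ) ≤ lo := by
    by_contra hc
    nlinarith [not_le.1 hc]
  have hw1 : -(M : ℤ) < lo * 2 := by
    have : (0 : ℤ) ≤ lo := by exact_mod_cast hlo0
    have := NeZero.pos M
    omega
  have hw2 : (lo + n) * 2 ≤ M := by
    have : ((lo : ℝ) + n) * 2 ≤ M := by
      rw [← mul_le_mul_iff_left₀ hh0]; nlinarith
    exact_mod_cast this
  have hs := sum_window lo n hw1 hw2 (fun _ => (1 : ℝ))
  simp only [sum_const, card_range, nsmul_eq_mul, mul_one] at hs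
  have hn : γ / 26 * M ≤ n := by
    rw [← mul_le_mul_iff_left₀ hh0]; nlinarith
  refine hn.trans (hs.symm.le.trans (sum_le_sum fun a _ => ?_))
  split_ifs with c1 c2
  · rfl
  · exfalso; apply c2
    have e1 : (lo : ℝ) ≤ a.valMinAbs := by exact_mod_cast c1.1
    have e2 : (a.valMinAbs : ℝ) + 1 ≤ lo + n := by exact_mod_cast c1.2
    have e3 : ang a = a.valMinAbs * h := by simp only [ang, hh]; ring
    have e4 : q ≤ ang a := by rw [e3]; nlinarith
    have e5 : ang a ≤ q + γ / 2 := by rw [e3]; nlinarith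
    constructor
    · have := Real.abs_cos_sub_cos_le q (ang a)
      rw [abs_sub_comm q, abs_of_nonneg (by linarith : 0 ≤ ang a - q), hcq] at this
      rw [show 2 - 2 * Real.cos (ang a) - τ = 2 * (1 - τ / 2 - Real.cos (ang a)) by ring, abs_mul,
        abs_two]
      linarith
    · have := Real.mul_le_sin (x := ang a) (by linarith) (by linarith)
      refine le_trans ?_ this
      rw [div_mul_eq_mul_div, le_div_iff₀ Real.pi_pos]
      nlinarith
  · exact zero_le_one
  · rfl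

/-- lower bound for the measure of the shell -/
theorem shell (d : ℕ) {a : ℝ} (ha : 0 < a) : ∃ c > 0, c ≤ 1 / 10 ∧ ∀ γ0 > 0, ∃ M0 : ℕ,
    ∀ M ≥ M0, ∀ [NeZero M] (z : ℂ), a ≤ z.re + 2 * d → z.re + 2 * d ≤ 1 / 4 → γ0 ≤ z.im →
      z.im ≤ c → ∀ j : Fin d, c * z.im ≤ av fun k : Tor d M => if Sh c z j k then 1 else 0 := by
  obtain ⟨b, hb, hb1, hba⟩ : ∃ b : ℝ, 0 < b ∧ b ≤ 1 / 5 ∧ 4 * b ^ 2 ≤ a := by
    refine ⟨min (1 / 5) (a / 4), by positivity, min_le_left _ _, ?_⟩
    have h1 := min_le_left (1 / 5 : ℝ) (a / 4)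
    have h2 := min_le_right (1 / 5 : ℝ) (a / 4)
    have h3 : 0 < min (1 / 5 : ℝ) (a / 4) := by positivity
    nlinarith
  set ρ : ℝ := b / (7 * (d + 1)) with hρ
  have hρ0 : 0 < ρ := by positivity
  have hρ1 : ρ ≤ 1 / 35 := by
    rw [hρ, div_le_iff₀ (by positivity)]; nlinarith [Nat.cast_nonneg (α := ℝ) d]
  refine ⟨min (b / 2) (ρ ^ d / 26), by positivity, (min_le_left _ _).trans (by linarith),
    fun γ0 hγ0 => ⟨⌈26 / γ0⌉₊ + 3, fun M hM _ z h1 h2 h3 h4 j => ?_⟩⟩
  have hM0 : (0 : ℝ) < M := Nat.cast_pos.2 (NeZero.pos M)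
  have hγ : 0 < z.im := hγ0.trans_le h3
  have hM1 : 26 / z.im ≤ M := by
    have : (⌈26 / γ0⌉₊ : ℝ) ≤ M := by exact_mod_cast (by omega)
    exact (div_le_div_of_nonneg_left (by norm_num) hγ0 h3).trans ((Nat.le_ceil _).trans this)
  have hM3 : (3 : ℝ) ≤ M := by exact_mod_cast (by omega)
  obtain ⟨m, hm1, hm2⟩ : ∃ m : ℕ, (m : ℝ) ≤ ρ * M ∧ ρ * M < m + 1 :=
    ⟨⌊ρ * M⌋₊, Nat.floor_le (by positivity), Nat.lt_floor_add_one _⟩
  have hm : 2 * m + 2 ≤ M := by
    have : (2 * m + 2 : ℝ) ≤ M := by nlinarith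
    exact_mod_cast this
  set c := min (b / 2) (ρ ^ d / 26)
  have hc1 : c ≤ b / 2 := min_le_left _ _
  have hc2 : c ≤ ρ ^ d / 26 := min_le_right _ _
  have key : ∀ k : Tor d M, z.im / 26 * M * (if nrm k ≤ m then (1 : ℝ) else 0) ≤
      ∑ a : ZMod M, if Sh c z j (Function.update k j a) then (1 : ℝ) else 0 := by
    intro k
    split_ifs with hk
    swap
    · rw [mul_zero]; exact sum_nonneg fun a _ => by positivity
    rw [mul_one]
    have e1 := eps_le_of_nrm k
    have e2 := le_eps_of_cos k j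
    have e3 : d * (2 * Real.pi * nrm k / M) ^ 2 ≤ b ^ 2 := by
      have : 2 * Real.pi * nrm k / M ≤ 7 * ρ := by
        have : (nrm k : ℝ) ≤ m := by exact_mod_cast hk
        rw [div_le_iff₀ hM0]; nlinarith [Real.pi_lt_d2, Nat.cast_nonneg (α := ℝ) (nrm k)]
      have e4 : (2 * Real.pi * nrm k / M) ^ 2 ≤ (7 * ρ) ^ 2 :=
        pow_le_pow_left₀ (by positivity) this 2
      have e5 : 7 * ρ * (d + 1) = b := by rw [hρ]; field_simp
      have e6 : (0 : ℝ) ≤ d := Nat.cast_nonneg d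
      rw [← e5, mul_pow (7 * ρ), mul_comm ((7 * ρ) ^ 2)]
      exact mul_le_mul (by nlinarith) e4 (sq_nonneg _) (sq_nonneg _)
    refine (shell_line (M := M) (τ := z.re - eps k + 2 - 2 * Real.cos (ang (k j))) hb hγ
      (by linarith) (by linarith) (by nlinarith [Real.cos_le_one (ang (k j))]) (by linarith)
      hM1).trans (sum_le_sum fun a _ => ?_)
    split_ifs with c1 c2
    · rfl
    · exfalso; apply c2
      refine ⟨?_, by rw [Function.update_self]; linarith [c1.2]⟩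
      rw [eps_update]
      convert c1.1 using 2; ring
    · exact zero_le_one
    · rfl
  have h5 := sum_le_sum fun (k : Tor d M) (_ : k ∈ univ) => key k
  rw [sum_update (fun k => if Sh c z j k then (1 : ℝ) else 0) j, ← mul_sum, card_box m hm] at h5
  have h6 : ρ ^ d * vol d M ≤ (2 * m + 1) ^ d := by
    rw [vol, ← mul_pow]
    exact pow_le_pow_left₀ (by positivity) (by nlinarith [Nat.cast_nonneg (α := ℝ) m]) d
  unfold av
  rw [le_inv_mul_iff₀ vol_pos, ← mul_le_mul_iff_right₀ hM0]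
  refine le_trans ?_ h5
  have hv := vol_pos (d := d) (M := M)
  calc M * (vol d M * (c * z.im)) ≤ M * (vol d M * (ρ ^ d / 26 * z.im)) := by gcongr
    _ = z.im / 26 * M * (ρ ^ d * vol d M) := by ring
    _ ≤ _ := by gcongr

lemma normSq_Gh_shell {z : ℂ} (hz : 0 < z.im) {k : Tor d M} (h : |eps k - z.re| ≤ z.im) :
    (2 * z.im ^ 2)⁻¹ ≤ ‖Gh z k‖ ^ 2 := by
  rw [normSq_Gh]
  refine inv_anti₀ (by positivity) ?_
  have := sq_le_sq' (abs_le.1 h).1 (abs_le.1 h).2
  linarith

lemma im_G0_of_shell {c : ℝ} {z : ℂ} (hz : 0 < z.im) {j : Fin d}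
    (h : c * z.im ≤ av fun k : Tor d M => if Sh c z j k then 1 else 0) :
    c / 2 ≤ (G0 z (0 : Tor d M)).im := by
  rw [im_G0_zero]
  have h1 : (2 * z.im)⁻¹ * (c * z.im) ≤ av fun k : Tor d M => (Gh z k).im := by
    refine (mul_le_mul_of_nonneg_left h (by positivity)).trans ?_
    rw [← av_mul]
    refine av_mono fun k => ?_
    rw [im_Gh]
    split_ifs with hk
    · refine le_trans (le_of_eq ?_) (mul_le_mul_of_nonneg_left (normSq_Gh_shell hz hk.1) hz.le)
      field_simp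
    · rw [mul_zero]; positivity
  refine le_trans (le_of_eq ?_) h1
  field_simp

lemma re_ch_sum (z : ℂ) (p : Tor d M) (s : ℝ) (hs : s ^ 2 = 1) :
    2 * ∑ x : Tor d M, ‖G0 z x‖ ^ 2 * (1 + s * (ch p x).re) =
      av fun k : Tor d M => ‖Gh z k + s * Gh z (k - p)‖ ^ 2 := by
  rw [← parseval, mul_sum]
  refine sum_congr rfl fun x _ => ?_
  have h1 : iF (fun k => Gh z k + s * Gh z (k - p)) x = G0 z x * (1 + s * ch p x) := by
    rw [iF_add, mul_add, mul_one, mul_left_comm, G0, iF_mul_ch]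
    simp only [iF, mul_assoc, ← mul_sum]; ring
  have h2 : ‖ch p x‖ ^ 2 = 1 := by simp
  rw [Complex.sq_norm, Complex.normSq_apply] at h2
  rw [h1, norm_mul, mul_pow, Complex.sq_norm (1 + _), Complex.normSq_apply]
  simp only [add_re, one_re, mul_re, ofReal_re, ofReal_im, zero_mul, sub_zero, add_im, one_im,
    mul_im, add_zero, zero_add]
  linear_combination (-‖G0 z x‖ ^ 2 * s ^ 2) * h2 - ‖G0 z x‖ ^ 2 * hs

lemma symb_plus {c : ℝ} {z : ℂ} (hz : 0 < z.im) {j : Fin d}
    (h : c * z.im ≤ av fun k : Tor d M => if Sh c z j k then 1 else 0) (p : Tor d M) :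
    c / 8 ≤ z.im * ∑ x : Tor d M, ‖G0 z x‖ ^ 2 * (1 + (ch p x).re) := by
  have h0 := re_ch_sum z p 1 (by norm_num)
  simp only [one_mul, ofReal_one] at h0
  have h1 : (4 * z.im ^ 2)⁻¹ * (c * z.im) ≤ av fun k : Tor d M => ‖Gh z k + Gh z (k - p)‖ ^ 2 := by
    refine (mul_le_mul_of_nonneg_left h (by positivity)).trans ?_
    rw [← av_mul]
    refine av_mono fun k => ?_
    split_ifs with hk
    · have e1 : (2 * z.im)⁻¹ ≤ (Gh z k + Gh z (k - p)).im := by
        rw [add_im, im_Gh, im_Gh]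
        have := mul_le_mul_of_nonneg_left (normSq_Gh_shell hz hk.1) hz.le
        have e : z.im * (2 * z.im ^ 2)⁻¹ = (2 * z.im)⁻¹ := by field_simp
        have : 0 ≤ z.im * ‖Gh z (k - p)‖ ^ 2 := by positivity
        linarith
      have e2 := e1.trans ((le_abs_self _).trans (Complex.abs_im_le_norm _))
      refine le_trans (le_of_eq ?_) (pow_le_pow_left₀ (by positivity) e2 2)
      field_simp; norm_num
    · rw [mul_zero]; positivity
  rw [← h0] at h1
  have e : (4 * z.im ^ 2)⁻¹ * (c * z.im) = c / 4 * z.im⁻¹ := by field_simp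
  rw [e, ← div_eq_mul_inv, div_le_iff₀ hz] at h1
  linarith

lemma normSq_Gh_sub {z : ℂ} (hz : 0 < z.im) {k l : Tor d M} (h : |eps k - z.re| ≤ z.im)
    {t : ℝ} (ht1 : t ≤ 1) (ht : t * z.im ^ 2 ≤ (eps l - eps k) ^ 2) :
    t / (10 * z.im ^ 2) ≤ ‖Gh z k - Gh z l‖ ^ 2 := by
  have e1 : Gh z k - Gh z l = ((eps l - eps k : ℝ) : ℂ) * Gh z k * Gh z l := by
    have h1 := eps_sub_ne hz k
    have h2 := eps_sub_ne hz l
    simp only [Gh]; push_cast; field_simp; ring
  rw [e1, norm_mul, norm_mul, mul_pow, mul_pow, Complex.norm_real, Real.norm_eq_abs, sq_abs]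
  have e2 := normSq_Gh_shell hz h
  set Δ := eps l - eps k with hΔ
  have e3 : (2 * Δ ^ 2 + 3 * z.im ^ 2)⁻¹ ≤ ‖Gh z l‖ ^ 2 := by
    rw [normSq_Gh]
    refine inv_anti₀ (by positivity) ?_
    have := sq_le_sq' (abs_le.1 h).1 (abs_le.1 h).2
    have e : eps l - z.re = Δ + (eps k - z.re) := by rw [hΔ]; ring
    rw [e]; nlinarith [sq_nonneg (Δ - (eps k - z.re))]
  calc t / (10 * z.im ^ 2) ≤ Δ ^ 2 * (2 * z.im ^ 2)⁻¹ * (2 * Δ ^ 2 + 3 * z.im ^ 2)⁻¹ := by
        rw [← div_eq_mul_inv, ← div_eq_mul_inv, div_div, div_le_div_iff₀ (by positivity)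
          (by positivity)]
        have : t * (2 * Δ ^ 2 + 3 * z.im ^ 2) ≤ 5 * Δ ^ 2 := by nlinarith [sq_nonneg Δ]
        nlinarith [sq_nonneg z.im]
    _ ≤ _ := by gcongr

/-- reflection of one coordinate -/
def refl (j : Fin d) : Tor d M ≃ Tor d M :=
  Function.Involutive.toPerm (fun k => Function.update k j (-k j)) fun k => by simp

lemma refl_apply (j : Fin d) (k : Tor d M) : refl j k = Function.update k j (-k j) := rfl

lemma symb_minus {c : ℝ} (hc : 0 < c) (hc1 : c ≤ 1 / 10) {z : ℂ} (hz : 0 < z.im) (hz1 : z.im ≤ c)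
    (hr : z.re + 2 * d ≤ 1 / 4) {j : Fin d}
    (h : c * z.im ≤ av fun k : Tor d M => if Sh c z j k then 1 else 0) (p : Tor d M) :
    c ^ 3 / 40 * min 1 ((ang (p j) / z.im) ^ 2) ≤
      z.im * ∑ x : Tor d M, ‖G0 z x‖ ^ 2 * (1 - (ch p x).re) := by
  have h0 := re_ch_sum z p (-1) (by norm_num)
  simp only [neg_mul, one_mul, ofReal_neg, ofReal_one, ← sub_eq_add_neg] at h0
  set t := c ^ 2 * min 1 ((ang (p j) / z.im) ^ 2) with ht
  have hm0 : 0 ≤ min 1 ((ang (p j) / z.im) ^ 2) := le_min zero_le_one (sq_nonneg _)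
  have hm1 := min_le_left 1 ((ang (p j) / z.im) ^ 2)
  have hm2 := min_le_right 1 ((ang (p j) / z.im) ^ 2)
  have hc2 : c ^ 2 ≤ 1 := by nlinarith
  have ht1 : t ≤ 1 := mul_le_one₀ hc2 hm0 hm1
  have ht0 : 0 ≤ t := by positivity
  set D : Tor d M → ℝ := fun k => ‖Gh z k - Gh z (k - p)‖ ^ 2 with hD
  have hD0 : ∀ k, 0 ≤ D k := fun k => by positivity
  have key : ∀ k, Sh c z j k → t / (10 * z.im ^ 2) ≤ D k + D (refl j k) := by
    intro k hk
    have e0 : eps (refl j k) = eps k := by rw [refl_apply, eps_update, cos_ang_neg]; ring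
    rcases le_total |ang (p j)| (Real.pi / 2) with hp | hp
    · have e1 : eps (refl j k - p) - eps (k - p) =
          4 * Real.sin (ang (k j)) * Real.sin (ang (p j)) := by
        have : refl j k - p = Function.update (k - p) j (-(k j - -p j)) := by
          funext i
          by_cases hi : i = j
          · subst hi; simp [refl_apply]; ring
          · simp [refl_apply, hi]
        have a1 : Real.cos (ang (k j - -p j)) = Real.cos (ang (k j) + ang (p j)) := by
          have : k j - -p j = (((k j).valMinAbs + (p j).valMinAbs : ℤ) : ZMod M) := by simp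
          rw [this, cos_ang_int]; congr 1; simp only [ang]; push_cast; ring
        rw [this, eps_update, cos_ang_neg, a1, Pi.sub_apply, cos_ang_sub, Real.cos_sub, Real.cos_add]
        ring
      have e2 := Real.mul_abs_le_abs_sin hp
      have e3 : |ang (p j)| / 2 ≤ |Real.sin (ang (p j))| := by
        refine le_trans ?_ e2
        rw [div_mul_eq_mul_div, div_le_div_iff₀ two_pos Real.pi_pos]
        nlinarith [Real.pi_le_four, abs_nonneg (ang (p j))]
      have e4 : ang (p j) ^ 2 ≤ 4 * Real.sin (ang (p j)) ^ 2 := by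
        rw [← sq_abs, ← sq_abs (Real.sin _)]; nlinarith [abs_nonneg (ang (p j))]
      have e5 : c ^ 2 ≤ Real.sin (ang (k j)) ^ 2 := pow_le_pow_left₀ hc.le hk.2 2
      have e6 : t * z.im ^ 2 ≤ c ^ 2 * ang (p j) ^ 2 := by
        calc t * z.im ^ 2 ≤ c ^ 2 * (ang (p j) / z.im) ^ 2 * z.im ^ 2 := by rw [ht]; gcongr
          _ = _ := by field_simp
      have e7 : 4 * (t * z.im ^ 2) ≤ (eps (refl j k - p) - eps (k - p)) ^ 2 := by
        rw [e1, mul_pow, mul_pow]
        nlinarith [mul_le_mul e5 e4 (sq_nonneg _) (sq_nonneg _)]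
      by_cases e8 : t * z.im ^ 2 ≤ (eps (k - p) - eps k) ^ 2
      · linarith [normSq_Gh_sub hz hk.1 ht1 e8, hD0 (refl j k)]
      · have e9 : t * z.im ^ 2 ≤ (eps (refl j k - p) - eps (refl j k)) ^ 2 := by
          rw [e0]
          nlinarith [sq_nonneg (eps (refl j k - p) - eps k + (eps (k - p) - eps k))]
        linarith [normSq_Gh_sub hz (k := refl j k) (by rw [e0]; exact hk.1) ht1 e9, hD0 k]
    · have e1 := le_eps_of_cos k j
      have e2 := le_eps_of_cos (k - p) j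
      rw [Pi.sub_apply, cos_ang_sub, Real.cos_sub] at e2
      have e3 : Real.cos (ang (p j)) ≤ 0 := by
        rw [← Real.cos_abs]
        exact Real.cos_nonpos_of_pi_div_two_le_of_le hp (by linarith [abs_ang_le (p j), Real.pi_pos])
      have e4 := (abs_le.1 hk.1).2
      have e5 : 4 / 5 ≤ Real.cos (ang (k j)) := by linarith
      have e6 : Real.sin (ang (k j)) ≤ 3 / 5 := by
        nlinarith [Real.sin_sq_add_cos_sq (ang (k j))]
      have e7 : Real.sin (ang (k j)) * Real.sin (ang (p j)) ≤ 3 / 5 := by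
        nlinarith [Real.sin_le_one (ang (p j)), hk.2]
      have e8 : z.im ≤ eps (k - p) - eps k := by nlinarith
      have e9 : t * z.im ^ 2 ≤ (eps (k - p) - eps k) ^ 2 :=
        (mul_le_of_le_one_left (sq_nonneg _) ht1).trans (pow_le_pow_left₀ hz.le e8 2)
      linarith [normSq_Gh_sub hz hk.1 ht1 e9, hD0 (refl j k)]
  have h1 : t / (10 * z.im ^ 2) * (c * z.im) ≤ av fun k => D k + D (refl j k) := by
    refine (mul_le_mul_of_nonneg_left h (by positivity)).trans ?_
    rw [← av_mul]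
    refine av_mono fun k => ?_
    split_ifs with hk
    · rw [mul_one]; exact key k hk
    · rw [mul_zero]; exact add_nonneg (hD0 _) (hD0 _)
  rw [av_add, av_equiv (refl j) D, ← h0] at h1
  have e : t / (10 * z.im ^ 2) * (c * z.im) = c * t / 10 / z.im := by field_simp
  rw [e, div_le_iff₀ hz, ht] at h1
  nlinarith

end Crest.Agent.N334.AC.I
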