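import Crest.Agent.N334.AC.I.Shell
import Crest.Agent.N334.AC.Iface

/-!
# Row 334, S0520, part I (helper24): abstract step distributions on the torus; leaf statements
-/

set_option autoImplicit false
set_option linter.unusedSectionVars false

open Finset Complex
open scoped ComplexConjugate Matrix.Norms.L2Operator

namespace Crest.Agent.N334.AC.I

variable {d M : ℕ} [NeZero M]

lemma tdist_eq (x y : Tor d M) : tdist x y = nrm (x - y) := rfl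

/-- symbol of a kernel -/
noncomputable def hat (π : Tor d M → ℝ) (p : Tor d M) : ℝ := ∑ x, π x * (ch p x).re

/-- `min 1 (|p| / γ)²` -/
noncomputable def mm (γ : ℝ) (p : Tor d M) : ℝ := min 1 (((nrm p : ℝ) / (γ * M)) ^ 2)

/-- Dirichlet form of a kernel -/
noncomputable def Dir (π : Tor d M → ℝ) (ψ : Tor d M → ℝ) : ℝ :=
  (1 / 2) * ∑ a, ∑ b, π (a - b) * (ψ a - ψ b) ^ 2

/-- a symmetric step distribution of range `1/γ` -/
structure Step (π : Tor d M → ℝ) (γ c : ℝ) : Prop where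
  γ_pos : 0 < γ
  γ_le : γ ≤ 1
  c_pos : 0 < c
  c_le : c ≤ 1
  nonneg : ∀ x, 0 ≤ π x
  even : ∀ x, π (-x) = π x
  sum_one : ∑ x, π x = 1
  symb : ∀ p, |hat π p| ≤ 1 - c * mm γ p
  mom : ∑ x, π x * Real.exp (2 * (c * γ) * nrm x) ≤ 2

lemma mm_nonneg (γ : ℝ) (p : Tor d M) : 0 ≤ mm γ p := le_min zero_le_one (sq_nonneg _)

lemma mm_le_one (γ : ℝ) (p : Tor d M) : mm γ p ≤ 1 := min_le_left _ _

lemma mm_pos {γ : ℝ} (hγ : 0 < γ) {p : Tor d M} (hp : p ≠ 0) : 0 < mm γ p := by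
  have hM : (0 : ℝ) < M := Nat.cast_pos.2 (NeZero.pos M)
  have : (0 : ℝ) < nrm p := Nat.cast_pos.2 (Nat.pos_of_ne_zero (mt nrm_eq_zero.1 hp))
  exact lt_min one_pos (by positivity)

lemma fF_even {π : Tor d M → ℝ} (he : ∀ x, π (-x) = π x) (p : Tor d M) :
    fF (fun x => (π x : ℂ)) p = hat π p := by
  have h1 : fF (fun x => (π x : ℂ)) p = ∑ x, (π x : ℂ) * ch p x := by
    unfold fF
    rw [← Equiv.sum_comp (Equiv.neg _)]
    simp [he]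
  have h2 : fF (fun x => (π x : ℂ)) p = ∑ x, (π x : ℂ) * conj (ch p x) := by
    simp only [fF, conj_ch]
  have h3 : (2 : ℂ) * fF (fun x => (π x : ℂ)) p = 2 * hat π p := by
    rw [two_mul]
    nth_rw 1 [h1]
    rw [h2, ← sum_add_distrib, hat]
    push_cast
    rw [mul_sum]
    refine sum_congr rfl fun x _ => ?_
    rw [← mul_add, Complex.add_conj]; push_cast; ring
  exact mul_left_cancel₀ two_ne_zero h3

lemma fF_shift (f : Tor d M → ℂ) (u p : Tor d M) :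
    fF (fun x => f (x + u)) p = fF f p * ch p u := by
  unfold fF
  rw [sum_mul, ← sum_add_right (fun x => f x * ch p (-x) * ch p u) u]
  refine sum_congr rfl fun x _ => ?_
  rw [mul_assoc, ← ch_add]; congr 2; abel

/-- Fourier weight of a real function -/
noncomputable def wt (ψ : Tor d M → ℝ) (p : Tor d M) : ℝ := ‖fF (fun x => (ψ x : ℂ)) p‖ ^ 2

lemma wt_nonneg (ψ : Tor d M → ℝ) (p : Tor d M) : 0 ≤ wt ψ p := sq_nonneg _

lemma sum_sq_eq (ψ : Tor d M → ℝ) : ∑ x, ψ x ^ 2 = av (wt ψ) := by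
  have := parseval_fF (fun x => (ψ x : ℂ))
  simp only [Complex.norm_real, Real.norm_eq_abs, sq_abs] at this
  exact this

lemma normSq_ch_sub_one (p u : Tor d M) : ‖ch p u - 1‖ ^ 2 = 2 * (1 - (ch p u).re) := by
  have h2 : ‖ch p u‖ ^ 2 = 1 := by simp
  rw [Complex.sq_norm, Complex.normSq_apply] at h2 ⊢
  simp only [sub_re, one_re, sub_im, one_im, sub_zero]
  linear_combination h2

lemma sum_shift_sq (ψ : Tor d M → ℝ) (u : Tor d M) :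
    ∑ x, (ψ (x + u) - ψ x) ^ 2 = av fun p => ‖ch p u - 1‖ ^ 2 * wt ψ p := by
  rw [sum_sq_eq]
  congr 1; funext p
  have : fF (fun x => ((ψ (x + u) - ψ x : ℝ) : ℂ)) p =
      (ch p u - 1) * fF (fun x => (ψ x : ℂ)) p := by
    rw [sub_mul, one_mul, mul_comm, ← fF_shift (fun x => (ψ x : ℂ))]
    simp only [fF, ← sum_sub_distrib]
    refine sum_congr rfl fun x _ => ?_
    push_cast; ring
  simp only [wt, this, norm_mul, mul_pow]

lemma sum_sum_sub (F : Tor d M → Tor d M → ℝ) :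
    ∑ a, ∑ b, F a b = ∑ u, ∑ x, F (x + u) x := by
  rw [sum_comm]
  conv_rhs => rw [sum_comm]
  refine sum_congr rfl fun x _ => ?_
  rw [← sum_add_right (fun a => F a x) x]
  simp only [add_comm]

lemma Dir_eq_shift (π ψ : Tor d M → ℝ) :
    Dir π ψ = (1 / 2) * ∑ u, π u * ∑ x, (ψ (x + u) - ψ x) ^ 2 := by
  unfold Dir
  rw [sum_sum_sub]
  simp only [add_sub_cancel_left, mul_sum]

lemma Dir_eq {π : Tor d M → ℝ} (h1 : ∑ x, π x = 1) (ψ : Tor d M → ℝ) :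
    Dir π ψ = av fun p => (1 - hat π p) * wt ψ p := by
  rw [Dir_eq_shift]
  simp only [sum_shift_sq, normSq_ch_sub_one, av, mul_sum]
  rw [sum_comm]
  refine sum_congr rfl fun p _ => ?_
  rw [hat, ← h1, ← sum_sub_distrib, sum_mul, mul_sum]
  simp only [h1]
  exact sum_congr rfl fun u _ => by ring

lemma Step.Dir_nonneg {π : Tor d M → ℝ} {γ c : ℝ} (h : Step π γ c) (ψ : Tor d M → ℝ) :
    0 ≤ Dir π ψ :=
  mul_nonneg (by norm_num) (sum_nonneg fun _ _ => sum_nonneg fun _ _ =>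
    mul_nonneg (h.nonneg _) (sq_nonneg _))

lemma Step.le_lam {π : Tor d M → ℝ} {γ c : ℝ} (h : Step π γ c) (p : Tor d M) :
    c * mm γ p ≤ 1 - hat π p := by
  linarith [h.symb p, le_abs_self (hat π p)]

/-! ### leaf statements -/

/-- Poincaré inequalities -/
def PoinStmt : Prop := ∀ (d : ℕ) (c : ℝ), 0 < c → ∃ C : ℝ, 1 ≤ C ∧
  ∀ (M : ℕ) [NeZero M] (π : Tor d M → ℝ) (γ : ℝ), Step π γ c →
    (∀ (ψ : Tor d M → ℝ) (u : Tor d M),
      ∑ x, (ψ (x + u) - ψ x) ^ 2 ≤ C * (1 + (γ * nrm u) ^ 2) * Dir π ψ) ∧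
    (∀ θ : ℝ, 0 < θ → θ ≤ 1 → ∑ u : Tor d M, Real.exp (-θ * nrm u) ≤ (C / θ) ^ d) ∧
    (∀ θ : ℝ, 0 < θ → θ ≤ 1 → ∀ ψ : Tor d M → ℝ,
      ∑ a, ∑ b, Real.exp (-θ * tdist a b) * (ψ a - ψ b) ^ 2 ≤ (C / θ) ^ (d + 3) * Dir π ψ)

/-- sliding cut-offs -/
def CutStmt : Prop := ∀ (d : ℕ) (c K : ℝ), 1 ≤ d → 0 < c → 1 ≤ K → ∃ C : ℝ, 1 ≤ C ∧
  ∀ (M : ℕ) [NeZero M], 8 ≤ M → ∀ (π : Tor d M → ℝ) (γ σ μ : ℝ), Step π γ c → 0 < σ → σ ≤ 1 →
    σ ^ 2 / K ≤ γ → γ ≤ K * σ ^ 2 → σ ^ 2 / K ≤ μ → ∀ L : ℕ, 1 ≤ σ ^ 2 * L →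
      ∃ χ cp, Cut (fun ψ => μ * Dir π ψ) σ C L χ cp

/-- the Hadamard square of the free resolvent -/
def RRStmt : Prop := ∀ d : ℕ, 3 ≤ d → ∃ C : ℝ, 1 ≤ C ∧ ∀ γ0 : ℝ, 0 < γ0 → ∃ M0 : ℕ,
  ∀ (M : ℕ) [NeZero M], M0 ≤ M → ∀ z : ℂ, z.re + 2 * d ≤ 1 / 4 → γ0 ≤ z.im → z.im ≤ 1 →
    ‖(Matrix.of fun x y : Tor d M => G0 z (x - y) * G0 z (x - y))‖ ≤ C / √z.im

end Crest.Agent.N334.AC.I
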